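import Mathlib

/-!
The Calabi identity for the cubic form of a Hessian metric of constant determinant in dimension
three, at a point where the Hessian is the identity.
-/

open Finset

namespace Vale.Agent.P252C

/-- Contraction of two cubic forms in one index. -/
def qq (A : Fin 3 → Fin 3 → Fin 3 → ℝ) (l i j k : Fin 3) : ℝ := ∑ a, A l i a * A a j k

/-- The Ricci form, four times. -/
def ric (A : Fin 3 → Fin 3 → Fin 3 → ℝ) (i a : Fin 3) : ℝ := ∑ j, ∑ k, A i j k * A a k j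

/-- The covariant derivative of the cubic form. -/
noncomputable def cov (A : Fin 3 → Fin 3 → Fin 3 → ℝ) (B : Fin 3 → Fin 3 → Fin 3 → Fin 3 → ℝ)
    (l i j k : Fin 3) : ℝ :=
  B l i j k - (qq A l i j k + qq A l j i k + qq A l k i j) / 2

/-- The first derivative of `G * T`. -/
def dm (A : Fin 3 → Fin 3 → Fin 3 → ℝ) (B : Fin 3 → Fin 3 → Fin 3 → Fin 3 → ℝ)
    (l i j k : Fin 3) : ℝ :=
  B l i j k - ∑ b, A l j b * A i b k

/-- The first derivative of the squared norm. -/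
def dR (A : Fin 3 → Fin 3 → Fin 3 → ℝ) (B : Fin 3 → Fin 3 → Fin 3 → Fin 3 → ℝ) (l : Fin 3) : ℝ :=
  -(∑ i, ∑ a, A l i a * ric A i a) + ∑ i, ∑ j, ∑ k, 2 * (dm A B l i j k * A i k j)

/-- The traced fifth derivatives forced by the equation. -/
def fifth (A : Fin 3 → Fin 3 → Fin 3 → ℝ) (B : Fin 3 → Fin 3 → Fin 3 → Fin 3 → ℝ)
    (i j k : Fin 3) : ℝ :=
  -(∑ p, ∑ q, ((∑ b, (A i p b * A j b q + A j p b * A i b q)) - B i j p q) * A p q k) +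
    ∑ p, ∑ q, A i p q * B j p q k + ∑ p, ∑ q, A j p q * B i p q k

/-- The Laplacian of the squared norm. -/
def lapR (A : Fin 3 → Fin 3 → Fin 3 → ℝ) (B : Fin 3 → Fin 3 → Fin 3 → Fin 3 → ℝ) : ℝ :=
  (∑ i, ∑ a, ric A i a * ric A i a) -
    2 * (∑ l, ∑ i, ∑ a, A l i a *
      ∑ j, ∑ k, (dm A B l i j k * A a k j + A i j k * dm A B l a k j)) +
    2 * (∑ i, ∑ j, ∑ k, ((∑ b, ric A j b * A i b k) - 2 * (∑ l, ∑ b, A l j b * B l i b k) +
      fifth A B i j k) * A i k j) +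
    2 * ∑ l, ∑ i, ∑ j, ∑ k, dm A B l i j k * dm A B l i k j

variable {A : Fin 3 → Fin 3 → Fin 3 → ℝ} {B : Fin 3 → Fin 3 → Fin 3 → Fin 3 → ℝ}

set_option maxHeartbeats 2000000 in
theorem calabi_identity (sA0 : ∀ i j k, A i j k = A j i k) (sA1 : ∀ i j k, A i j k = A i k j)
    (sB0 : ∀ l i j k, B l i j k = B i l j k) (sB1 : ∀ l i j k, B l i j k = B l j i k)
    (sB2 : ∀ l i j k, B l i j k = B l i k j) (trA : ∀ k, ∑ p, A p p k = 0)
    (trB : ∀ j k, ∑ p, B p p j k = ric A j k) :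
    lapR A B = 2 * (∑ l, ∑ i, ∑ j, ∑ k, cov A B l i j k ^ 2) +
      5 / 2 * (∑ i, ∑ a, ric A i a ^ 2) - (∑ i, ric A i i) ^ 2 / 2 ∧
    ∀ l, dR A B l = 2 * ∑ i, ∑ j, ∑ k, A i j k * cov A B l i j k := by
  have A010 : A 0 1 0 = A 0 0 1 := (sA1 0 1 0)
  have A020 : A 0 2 0 = A 0 0 2 := (sA1 0 2 0)
  have A021 : A 0 2 1 = A 0 1 2 := (sA1 0 2 1)
  have A100 : A 1 0 0 = A 0 0 1 := ((sA0 1 0 0).trans (sA1 0 1 0))
  have A101 : A 1 0 1 = A 0 1 1 := (sA0 1 0 1)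
  have A102 : A 1 0 2 = A 0 1 2 := (sA0 1 0 2)
  have A110 : A 1 1 0 = A 0 1 1 := ((sA1 1 1 0).trans (sA0 1 0 1))
  have A120 : A 1 2 0 = A 0 1 2 := ((sA1 1 2 0).trans (sA0 1 0 2))
  have A121 : A 1 2 1 = A 1 1 2 := (sA1 1 2 1)
  have A200 : A 2 0 0 = A 0 0 2 := ((sA0 2 0 0).trans (sA1 0 2 0))
  have A201 : A 2 0 1 = A 0 1 2 := ((sA0 2 0 1).trans (sA1 0 2 1))
  have A202 : A 2 0 2 = A 0 2 2 := (sA0 2 0 2)
  have A210 : A 2 1 0 = A 0 1 2 := ((sA0 2 1 0).trans ((sA1 1 2 0).trans (sA0 1 0 2)))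
  have A211 : A 2 1 1 = A 1 1 2 := ((sA0 2 1 1).trans (sA1 1 2 1))
  have A212 : A 2 1 2 = A 1 2 2 := (sA0 2 1 2)
  have A220 : A 2 2 0 = A 0 2 2 := ((sA1 2 2 0).trans (sA0 2 0 2))
  have A221 : A 2 2 1 = A 1 2 2 := ((sA1 2 2 1).trans (sA0 2 1 2))
  have B0010 : B 0 0 1 0 = B 0 0 0 1 := (sB2 0 0 1 0)
  have B0020 : B 0 0 2 0 = B 0 0 0 2 := (sB2 0 0 2 0)
  have B0021 : B 0 0 2 1 = B 0 0 1 2 := (sB2 0 0 2 1)
  have B0100 : B 0 1 0 0 = B 0 0 0 1 := ((sB1 0 1 0 0).trans (sB2 0 0 1 0))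
  have B0101 : B 0 1 0 1 = B 0 0 1 1 := (sB1 0 1 0 1)
  have B0102 : B 0 1 0 2 = B 0 0 1 2 := (sB1 0 1 0 2)
  have B0110 : B 0 1 1 0 = B 0 0 1 1 := ((sB2 0 1 1 0).trans (sB1 0 1 0 1))
  have B0120 : B 0 1 2 0 = B 0 0 1 2 := ((sB2 0 1 2 0).trans (sB1 0 1 0 2))
  have B0121 : B 0 1 2 1 = B 0 1 1 2 := (sB2 0 1 2 1)
  have B0200 : B 0 2 0 0 = B 0 0 0 2 := ((sB1 0 2 0 0).trans (sB2 0 0 2 0))
  have B0201 : B 0 2 0 1 = B 0 0 1 2 := ((sB1 0 2 0 1).trans (sB2 0 0 2 1))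
  have B0202 : B 0 2 0 2 = B 0 0 2 2 := (sB1 0 2 0 2)
  have B0210 : B 0 2 1 0 = B 0 0 1 2 := ((sB1 0 2 1 0).trans ((sB2 0 1 2 0).trans (sB1 0 1 0 2)))
  have B0211 : B 0 2 1 1 = B 0 1 1 2 := ((sB1 0 2 1 1).trans (sB2 0 1 2 1))
  have B0212 : B 0 2 1 2 = B 0 1 2 2 := (sB1 0 2 1 2)
  have B0220 : B 0 2 2 0 = B 0 0 2 2 := ((sB2 0 2 2 0).trans (sB1 0 2 0 2))
  have B0221 : B 0 2 2 1 = B 0 1 2 2 := ((sB2 0 2 2 1).trans (sB1 0 2 1 2))
  have B1000 : B 1 0 0 0 = B 0 0 0 1 := ((sB0 1 0 0 0).trans ((sB1 0 1 0 0).trans (sB2 0 0 1 0)))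
  have B1001 : B 1 0 0 1 = B 0 0 1 1 := ((sB0 1 0 0 1).trans (sB1 0 1 0 1))
  have B1002 : B 1 0 0 2 = B 0 0 1 2 := ((sB0 1 0 0 2).trans (sB1 0 1 0 2))
  have B1010 : B 1 0 1 0 = B 0 0 1 1 := ((sB0 1 0 1 0).trans ((sB2 0 1 1 0).trans (sB1 0 1 0 1)))
  have B1011 : B 1 0 1 1 = B 0 1 1 1 := (sB0 1 0 1 1)
  have B1012 : B 1 0 1 2 = B 0 1 1 2 := (sB0 1 0 1 2)
  have B1020 : B 1 0 2 0 = B 0 0 1 2 := ((sB0 1 0 2 0).trans ((sB2 0 1 2 0).trans (sB1 0 1 0 2)))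
  have B1021 : B 1 0 2 1 = B 0 1 1 2 := ((sB0 1 0 2 1).trans (sB2 0 1 2 1))
  have B1022 : B 1 0 2 2 = B 0 1 2 2 := (sB0 1 0 2 2)
  have B1100 : B 1 1 0 0 = B 0 0 1 1 := ((sB1 1 1 0 0).trans ((sB0 1 0 1 0).trans ((sB2 0 1 1 0).trans (sB1 0 1 0 1))))
  have B1101 : B 1 1 0 1 = B 0 1 1 1 := ((sB1 1 1 0 1).trans (sB0 1 0 1 1))
  have B1102 : B 1 1 0 2 = B 0 1 1 2 := ((sB1 1 1 0 2).trans (sB0 1 0 1 2))
  have B1110 : B 1 1 1 0 = B 0 1 1 1 := ((sB2 1 1 1 0).trans ((sB1 1 1 0 1).trans (sB0 1 0 1 1)))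
  have B1120 : B 1 1 2 0 = B 0 1 1 2 := ((sB2 1 1 2 0).trans ((sB1 1 1 0 2).trans (sB0 1 0 1 2)))
  have B1121 : B 1 1 2 1 = B 1 1 1 2 := (sB2 1 1 2 1)
  have B1200 : B 1 2 0 0 = B 0 0 1 2 := ((sB1 1 2 0 0).trans ((sB0 1 0 2 0).trans ((sB2 0 1 2 0).trans (sB1 0 1 0 2))))
  have B1201 : B 1 2 0 1 = B 0 1 1 2 := ((sB1 1 2 0 1).trans ((sB0 1 0 2 1).trans (sB2 0 1 2 1)))
  have B1202 : B 1 2 0 2 = B 0 1 2 2 := ((sB1 1 2 0 2).trans (sB0 1 0 2 2))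
  have B1210 : B 1 2 1 0 = B 0 1 1 2 := ((sB1 1 2 1 0).trans ((sB2 1 1 2 0).trans ((sB1 1 1 0 2).trans (sB0 1 0 1 2))))
  have B1211 : B 1 2 1 1 = B 1 1 1 2 := ((sB1 1 2 1 1).trans (sB2 1 1 2 1))
  have B1212 : B 1 2 1 2 = B 1 1 2 2 := (sB1 1 2 1 2)
  have B1220 : B 1 2 2 0 = B 0 1 2 2 := ((sB2 1 2 2 0).trans ((sB1 1 2 0 2).trans (sB0 1 0 2 2)))
  have B1221 : B 1 2 2 1 = B 1 1 2 2 := ((sB2 1 2 2 1).trans (sB1 1 2 1 2))
  have B2000 : B 2 0 0 0 = B 0 0 0 2 := ((sB0 2 0 0 0).trans ((sB1 0 2 0 0).trans (sB2 0 0 2 0)))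
  have B2001 : B 2 0 0 1 = B 0 0 1 2 := ((sB0 2 0 0 1).trans ((sB1 0 2 0 1).trans (sB2 0 0 2 1)))
  have B2002 : B 2 0 0 2 = B 0 0 2 2 := ((sB0 2 0 0 2).trans (sB1 0 2 0 2))
  have B2010 : B 2 0 1 0 = B 0 0 1 2 := ((sB0 2 0 1 0).trans ((sB1 0 2 1 0).trans ((sB2 0 1 2 0).trans (sB1 0 1 0 2))))
  have B2011 : B 2 0 1 1 = B 0 1 1 2 := ((sB0 2 0 1 1).trans ((sB1 0 2 1 1).trans (sB2 0 1 2 1)))
  have B2012 : B 2 0 1 2 = B 0 1 2 2 := ((sB0 2 0 1 2).trans (sB1 0 2 1 2))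
  have B2020 : B 2 0 2 0 = B 0 0 2 2 := ((sB0 2 0 2 0).trans ((sB2 0 2 2 0).trans (sB1 0 2 0 2)))
  have B2021 : B 2 0 2 1 = B 0 1 2 2 := ((sB0 2 0 2 1).trans ((sB2 0 2 2 1).trans (sB1 0 2 1 2)))
  have B2022 : B 2 0 2 2 = B 0 2 2 2 := (sB0 2 0 2 2)
  have B2100 : B 2 1 0 0 = B 0 0 1 2 := ((sB0 2 1 0 0).trans ((sB1 1 2 0 0).trans ((sB0 1 0 2 0).trans ((sB2 0 1 2 0).trans (sB1 0 1 0 2)))))
  have B2101 : B 2 1 0 1 = B 0 1 1 2 := ((sB0 2 1 0 1).trans ((sB1 1 2 0 1).trans ((sB0 1 0 2 1).trans (sB2 0 1 2 1))))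
  have B2102 : B 2 1 0 2 = B 0 1 2 2 := ((sB0 2 1 0 2).trans ((sB1 1 2 0 2).trans (sB0 1 0 2 2)))
  have B2110 : B 2 1 1 0 = B 0 1 1 2 := ((sB0 2 1 1 0).trans ((sB1 1 2 1 0).trans ((sB2 1 1 2 0).trans ((sB1 1 1 0 2).trans (sB0 1 0 1 2)))))
  have B2111 : B 2 1 1 1 = B 1 1 1 2 := ((sB0 2 1 1 1).trans ((sB1 1 2 1 1).trans (sB2 1 1 2 1)))
  have B2112 : B 2 1 1 2 = B 1 1 2 2 := ((sB0 2 1 1 2).trans (sB1 1 2 1 2))
  have B2120 : B 2 1 2 0 = B 0 1 2 2 := ((sB0 2 1 2 0).trans ((sB2 1 2 2 0).trans ((sB1 1 2 0 2).trans (sB0 1 0 2 2))))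
  have B2121 : B 2 1 2 1 = B 1 1 2 2 := ((sB0 2 1 2 1).trans ((sB2 1 2 2 1).trans (sB1 1 2 1 2)))
  have B2122 : B 2 1 2 2 = B 1 2 2 2 := (sB0 2 1 2 2)
  have B2200 : B 2 2 0 0 = B 0 0 2 2 := ((sB1 2 2 0 0).trans ((sB0 2 0 2 0).trans ((sB2 0 2 2 0).trans (sB1 0 2 0 2))))
  have B2201 : B 2 2 0 1 = B 0 1 2 2 := ((sB1 2 2 0 1).trans ((sB0 2 0 2 1).trans ((sB2 0 2 2 1).trans (sB1 0 2 1 2))))
  have B2202 : B 2 2 0 2 = B 0 2 2 2 := ((sB1 2 2 0 2).trans (sB0 2 0 2 2))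
  have B2210 : B 2 2 1 0 = B 0 1 2 2 := ((sB1 2 2 1 0).trans ((sB0 2 1 2 0).trans ((sB2 1 2 2 0).trans ((sB1 1 2 0 2).trans (sB0 1 0 2 2)))))
  have B2211 : B 2 2 1 1 = B 1 1 2 2 := ((sB1 2 2 1 1).trans ((sB0 2 1 2 1).trans ((sB2 1 2 2 1).trans (sB1 1 2 1 2))))
  have B2212 : B 2 2 1 2 = B 1 2 2 2 := ((sB1 2 2 1 2).trans (sB0 2 1 2 2))
  have B2220 : B 2 2 2 0 = B 0 2 2 2 := ((sB2 2 2 2 0).trans ((sB1 2 2 0 2).trans (sB0 2 0 2 2)))
  have B2221 : B 2 2 2 1 = B 1 2 2 2 := ((sB2 2 2 2 1).trans ((sB1 2 2 1 2).trans (sB0 2 1 2 2)))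
  have t0 := trA 0
  have t1 := trA 1
  have t2 := trA 2
  have e00 := trB 0 0
  have e01 := trB 0 1
  have e02 := trB 0 2
  have e11 := trB 1 1
  have e12 := trB 1 2
  have e22 := trB 2 2
  simp only [Fin.sum_univ_three, A010, A020, A021, A100, A101, A102, A110, A120, A121, A200, A201, A202, A210, A211, A212,
      A220, A221, B0010, B0020, B0021, B0100, B0101, B0102, B0110, B0120, B0121, B0200, B0201,
      B0202, B0210, B0211, B0212, B0220, B0221, B1000, B1001, B1002, B1010, B1011, B1012, B1020,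
      B1021, B1022, B1100, B1101, B1102, B1110, B1120, B1121, B1200, B1201, B1202, B1210, B1211,
      B1212, B1220, B1221, B2000, B2001, B2002, B2010, B2011, B2012, B2020, B2021, B2022, B2100,
      B2101, B2102, B2110, B2111, B2112, B2120, B2121, B2122, B2200, B2201, B2202, B2210, B2211,
      B2212, B2220, B2221] at t0 t1 t2 e00 e01 e02 e11 e12 e22
  have a0 : A 0 2 2 = -A 0 0 0 - A 0 1 1 := by linarith
  have a1 : A 1 2 2 = -A 0 0 1 - A 1 1 1 := by linarith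
  have a2 : A 2 2 2 = -A 0 0 2 - A 1 1 2 := by linarith
  have b00 : B 0 0 2 2 = ric A 0 0 - B 0 0 0 0 - B 0 0 1 1 := by linarith
  have b01 : B 0 1 2 2 = ric A 0 1 - B 0 0 0 1 - B 0 1 1 1 := by linarith
  have b11 : B 1 1 2 2 = ric A 1 1 - B 0 0 1 1 - B 1 1 1 1 := by linarith
  have b02 : B 0 2 2 2 = ric A 0 2 - B 0 0 0 2 - B 0 1 1 2 := by linarith
  have b12 : B 1 2 2 2 = ric A 1 2 - B 0 0 1 2 - B 1 1 1 2 := by linarith
  have b22 : B 2 2 2 2 = ric A 2 2 - B 0 0 2 2 - B 1 1 2 2 := by linarith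
  refine ⟨?_, fun l => ?_⟩
  · simp only [lapR, cov, dm, fifth, qq, Fin.sum_univ_three, A010, A020, A021, A100, A101, A102, A110, A120, A121, A200, A201, A202, A210, A211, A212,
      A220, A221, B0010, B0020, B0021, B0100, B0101, B0102, B0110, B0120, B0121, B0200, B0201,
      B0202, B0210, B0211, B0212, B0220, B0221, B1000, B1001, B1002, B1010, B1011, B1012, B1020,
      B1021, B1022, B1100, B1101, B1102, B1110, B1120, B1121, B1200, B1201, B1202, B1210, B1211,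
      B1212, B1220, B1221, B2000, B2001, B2002, B2010, B2011, B2012, B2020, B2021, B2022, B2100,
      B2101, B2102, B2110, B2111, B2112, B2120, B2121, B2122, B2200, B2201, B2202, B2210, B2211,
      B2212, B2220, B2221]
    simp only [b22, b00, b01, b11, b02, b12, ric, Fin.sum_univ_three, A010, A020, A021, A100, A101, A102, A110, A120, A121, A200, A201, A202, A210, A211, A212,
      A220, A221, B0010, B0020, B0021, B0100, B0101, B0102, B0110, B0120, B0121, B0200, B0201,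
      B0202, B0210, B0211, B0212, B0220, B0221, B1000, B1001, B1002, B1010, B1011, B1012, B1020,
      B1021, B1022, B1100, B1101, B1102, B1110, B1120, B1121, B1200, B1201, B1202, B1210, B1211,
      B1212, B1220, B1221, B2000, B2001, B2002, B2010, B2011, B2012, B2020, B2021, B2022, B2100,
      B2101, B2102, B2110, B2111, B2112, B2120, B2121, B2122, B2200, B2201, B2202, B2210, B2211,
      B2212, B2220, B2221]
    simp only [a0, a1, a2]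
    ring
  · fin_cases l <;>
      (simp only [Fin.reduceFinMk, Fin.zero_eta, Fin.isValue, dR, cov, dm, qq,
        Fin.sum_univ_three, A010, A020, A021, A100, A101, A102, A110, A120, A121, A200, A201, A202, A210, A211, A212,
      A220, A221, B0010, B0020, B0021, B0100, B0101, B0102, B0110, B0120, B0121, B0200, B0201,
      B0202, B0210, B0211, B0212, B0220, B0221, B1000, B1001, B1002, B1010, B1011, B1012, B1020,
      B1021, B1022, B1100, B1101, B1102, B1110, B1120, B1121, B1200, B1201, B1202, B1210, B1211,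
      B1212, B1220, B1221, B2000, B2001, B2002, B2010, B2011, B2012, B2020, B2021, B2022, B2100,
      B2101, B2102, B2110, B2111, B2112, B2120, B2121, B2122, B2200, B2201, B2202, B2210, B2211,
      B2212, B2220, B2221]
       simp only [b22, b00, b01, b11, b02, b12, ric, Fin.sum_univ_three, A010, A020, A021, A100, A101, A102, A110, A120, A121, A200, A201, A202, A210, A211, A212,
      A220, A221, B0010, B0020, B0021, B0100, B0101, B0102, B0110, B0120, B0121, B0200, B0201,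
      B0202, B0210, B0211, B0212, B0220, B0221, B1000, B1001, B1002, B1010, B1011, B1012, B1020,
      B1021, B1022, B1100, B1101, B1102, B1110, B1120, B1121, B1200, B1201, B1202, B1210, B1211,
      B1212, B1220, B1221, B2000, B2001, B2002, B2010, B2011, B2012, B2020, B2021, B2022, B2100,
      B2101, B2102, B2110, B2111, B2112, B2120, B2121, B2122, B2200, B2201, B2202, B2210, B2211,
      B2212, B2220, B2221]
       simp only [a0, a1, a2]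
       ring)

end Vale.Agent.P252C

namespace Vale.Agent.P252C

variable {A : Fin 3 → Fin 3 → Fin 3 → ℝ} {B : Fin 3 → Fin 3 → Fin 3 → Fin 3 → ℝ}

theorem ric_sq_ge (A : Fin 3 → Fin 3 → Fin 3 → ℝ) :
    (∑ i, ric A i i) ^ 2 ≤ 3 * ∑ i, ∑ a, ric A i a ^ 2 := by
  simp only [Fin.sum_univ_three]
  nlinarith [sq_nonneg (ric A 0 0 - ric A 1 1), sq_nonneg (ric A 0 0 - ric A 2 2),
    sq_nonneg (ric A 1 1 - ric A 2 2), sq_nonneg (ric A 0 1), sq_nonneg (ric A 0 2),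
    sq_nonneg (ric A 1 0), sq_nonneg (ric A 1 2), sq_nonneg (ric A 2 0), sq_nonneg (ric A 2 1)]

/-- The weighted combination that is integrated by parts. -/
theorem calabi_weighted (sA0 : ∀ i j k, A i j k = A j i k) (sA1 : ∀ i j k, A i j k = A i k j)
    (sB0 : ∀ l i j k, B l i j k = B i l j k) (sB1 : ∀ l i j k, B l i j k = B l j i k)
    (sB2 : ∀ l i j k, B l i j k = B l i k j) (trA : ∀ k, ∑ p, A p p k = 0)
    (trB : ∀ j k, ∑ p, B p p j k = ric A j k) (w : Fin 3 → ℝ) (v k : ℝ) :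
    v ^ 2 * (∑ i, ric A i i) ^ 2 / 3 ≤ v ^ 2 * lapR A B - k * v * (∑ l, w l * dR A B l) +
      k ^ 2 / 2 * (∑ l, w l * w l) * (∑ i, ric A i i) := by
  obtain ⟨h1, h2⟩ := calabi_identity sA0 sA1 sB0 sB1 sB2 trA trB
  have h3 := ric_sq_ge A
  have h4 : 0 ≤ ∑ l, ∑ i, ∑ j, ∑ m, 2 * (v * cov A B l i j m - k / 2 * (w l * A i j m)) ^ 2 :=
    Finset.sum_nonneg fun _ _ => Finset.sum_nonneg fun _ _ => Finset.sum_nonneg fun _ _ =>
      Finset.sum_nonneg fun _ _ => by positivity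
  have hR : (∑ i, ric A i i) = ∑ i, ∑ j, ∑ m, A i j m * A i j m :=
    Finset.sum_congr rfl fun i _ => Finset.sum_congr rfl fun j _ => Finset.sum_congr rfl fun m _ => by
      rw [sA1 i m j]
  have h5 : ∑ l, ∑ i, ∑ j, ∑ m, 2 * (v * cov A B l i j m - k / 2 * (w l * A i j m)) ^ 2 =
      2 * v ^ 2 * (∑ l, ∑ i, ∑ j, ∑ m, cov A B l i j m ^ 2) - k * v * (∑ l, w l * dR A B l) +
        k ^ 2 / 2 * (∑ l, w l * w l) * (∑ i, ric A i i) := by
    rw [hR, mul_assoc (k ^ 2 / 2), Finset.sum_mul]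
    simp only [h2, Finset.mul_sum, ← Finset.sum_sub_distrib,
      ← Finset.sum_add_distrib]
    exact Finset.sum_congr rfl fun l _ => Finset.sum_congr rfl fun i _ =>
      Finset.sum_congr rfl fun j _ => Finset.sum_congr rfl fun m _ => by ring
  nlinarith [mul_le_mul_of_nonneg_left h3 (sq_nonneg v)]

/-- The sharp bound for a cubic form without trace. -/
theorem cubic_le (sA0 : ∀ i j k, A i j k = A j i k) (sA1 : ∀ i j k, A i j k = A i k j)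
    (trA : ∀ k, ∑ p, A p p k = 0) (w : Fin 3 → ℝ) :
    (∑ i, ∑ j, ∑ k, A i j k * (w i * w j * w k)) ^ 2 ≤
      2 / 5 * (∑ i, ric A i i) * (∑ l, w l * w l) ^ 3 := by
  set Q := ∑ l, w l * w l with hQ
  set T : Fin 3 × Fin 3 × Fin 3 → ℝ := fun x => w x.1 * w x.2.1 * w x.2.2 - Q / 5 *
    ((w x.1 * if x.2.1 = x.2.2 then 1 else 0) + (w x.2.1 * if x.1 = x.2.2 then 1 else 0) +
      (w x.2.2 * if x.1 = x.2.1 then 1 else 0)) with hT
  have h := Finset.sum_mul_sq_le_sq_mul_sq Finset.univ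
    (fun x : Fin 3 × Fin 3 × Fin 3 => A x.1 x.2.1 x.2.2) T
  simp only [Fintype.sum_prod_type] at h
  have e1 : (∑ i, ∑ j, ∑ k, A i j k * T (i, j, k)) = ∑ i, ∑ j, ∑ k, A i j k * (w i * w j * w k) := by
    have t1 : ∀ i, ∑ j, A i j j = 0 := fun i => by
      rw [← trA i]; exact Finset.sum_congr rfl fun j _ => by rw [sA0 i j j, sA1 j i j]
    have t2 : ∀ j, ∑ i, A i j i = 0 := fun j => by
      rw [← trA j]; exact Finset.sum_congr rfl fun i _ => sA1 i j i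
    have a0 := t1 0; have a1 := t1 1; have a2 := t1 2
    have b0 := t2 0; have b1 := t2 1; have b2 := t2 2
    have c0 := trA 0; have c1 := trA 1; have c2 := trA 2
    simp only [Fin.sum_univ_three] at a0 a1 a2 b0 b1 b2 c0 c1 c2
    simp only [hT, Fin.sum_univ_three, Fin.isValue, Fin.reduceEq, if_true, if_false]
    linear_combination (-(Q / 5) * w 0) * a0 + (-(Q / 5) * w 1) * a1 + (-(Q / 5) * w 2) * a2 +
      (-(Q / 5) * w 0) * b0 + (-(Q / 5) * w 1) * b1 + (-(Q / 5) * w 2) * b2 +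
      (-(Q / 5) * w 0) * c0 + (-(Q / 5) * w 1) * c1 + (-(Q / 5) * w 2) * c2
  have e2 : (∑ i, ∑ j, ∑ k, T (i, j, k) ^ 2) = 2 / 5 * Q ^ 3 := by
    simp only [hT, hQ, Fin.sum_univ_three, Fin.isValue, Fin.reduceEq, if_true, if_false]
    ring
  have e3 : (∑ i, ∑ j, ∑ k, A i j k ^ 2) = ∑ i, ric A i i :=
    Finset.sum_congr rfl fun i _ => Finset.sum_congr rfl fun j _ => Finset.sum_congr rfl fun k _ => by
      rw [sA1 i k j]; ring
  rw [e1, e2, e3] at h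
  exact h.trans (le_of_eq (by ring))

end Vale.Agent.P252C
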