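import Vale.Agent.P252B.Smooth

/-!
Coordinate derivatives of smooth functions on the whole space, the inverse Hessian, its
derivatives and the consequences of a constant Hessian determinant.
-/

open Set Matrix Finset

namespace Vale.Agent.P252C

open Vale.Agent.P252 (hessian)
open Vale.Agent.P252B (V pd)

variable {n : ℕ}

/-- Smooth. -/
def Sm (f : V n → ℝ) : Prop := ContDiff ℝ (↑(⊤ : ℕ∞)) f

theorem Sm.diff {f : V n → ℝ} (h : Sm f) (x : V n) : DifferentiableAt ℝ f x :=
  ContDiff.differentiable h (by norm_num) x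

theorem Sm.pd {f : V n → ℝ} (h : Sm f) (i : Fin n) : Sm (pd f i) :=
  (ContDiff.fderiv_right h le_rfl).clm_apply contDiff_const

theorem sm_const (c : ℝ) : Sm (fun _ : V n => c) := contDiff_const

theorem Sm.mul {f g : V n → ℝ} (hf : Sm f) (hg : Sm g) : Sm (fun x => f x * g x) :=
  ContDiff.mul hf hg

theorem Sm.add {f g : V n → ℝ} (hf : Sm f) (hg : Sm g) : Sm (fun x => f x + g x) :=
  ContDiff.add hf hg

theorem Sm.neg {f : V n → ℝ} (hf : Sm f) : Sm (fun x => -f x) :=
  ContDiff.neg hf

theorem sm_sum {ι : Type} {s : Finset ι} {f : ι → V n → ℝ} (h : ∀ i ∈ s, Sm (f i)) :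
    Sm (fun x => ∑ i ∈ s, f i x) :=
  ContDiff.sum h

theorem pd_add {f g : V n → ℝ} (hf : Sm f) (hg : Sm g) (i : Fin n) (x : V n) :
    pd (fun y => f y + g y) i x = pd f i x + pd g i x := by
  simp [P252B.pd, fderiv_fun_add (hf.diff x) (hg.diff x)]

theorem pd_neg {f : V n → ℝ} (i : Fin n) (x : V n) :
    pd (fun y => -f y) i x = -pd f i x := by
  simp [P252B.pd, fderiv_fun_neg]

theorem pd_mul {f g : V n → ℝ} (hf : Sm f) (hg : Sm g) (i : Fin n) (x : V n) :
    pd (fun y => f y * g y) i x = pd f i x * g x + f x * pd g i x := by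
  simp [P252B.pd, fderiv_fun_mul (hf.diff x) (hg.diff x)]
  ring

theorem pd_sum {ι : Type} {s : Finset ι} {f : ι → V n → ℝ} (h : ∀ i ∈ s, Sm (f i)) (i : Fin n)
    (x : V n) : pd (fun y => ∑ j ∈ s, f j y) i x = ∑ j ∈ s, pd (f j) i x := by
  simp [P252B.pd, fderiv_fun_sum fun j hj => (h j hj).diff x]

theorem pd_const (c : ℝ) (i : Fin n) (x : V n) : pd (fun _ => c) i x = 0 := by
  simp [P252B.pd]

theorem pd_comm {f : V n → ℝ} (h : Sm f) (a b : Fin n) : pd (pd f a) b = pd (pd f b) a := by
  funext x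
  have hd : DifferentiableAt ℝ (fderiv ℝ f) x :=
    (ContDiff.fderiv_right (m := (↑(⊤ : ℕ∞))) h le_rfl).differentiable (by norm_num) x
  have e : ∀ a b, pd (pd f a) b x =
      fderiv ℝ (fderiv ℝ f) x (EuclideanSpace.single b 1) (EuclideanSpace.single a 1) := fun a b => by
    unfold P252B.pd
    rw [fderiv_clm_apply hd (differentiableAt_const _)]
    simp
  rw [e, e]
  exact (ContDiffAt.isSymmSndFDerivAt h.contDiffAt (by
    rw [minSmoothness_of_isRCLikeNormedField]; exact ENat.LEInfty.out)).eq _ _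

/-- A smooth function, with positive definite Hessian of unit determinant on an open set. -/
structure DetOne (u : V n → ℝ) (O : Set (V n)) : Prop where
  sm : Sm u
  op : IsOpen O
  pos : ∀ x ∈ O, (hessian u x).PosDef
  det : ∀ x ∈ O, (hessian u x).det = 1

theorem pd_congr_on {O : Set (V n)} (hO : IsOpen O) {f g : V n → ℝ} (hfg : ∀ y ∈ O, f y = g y)
    {x : V n} (hx : x ∈ O) (i : Fin n) : pd f i x = pd g i x := by
  simp [P252B.pd, (Filter.eventuallyEq_of_mem (hO.mem_nhds hx) hfg).fderiv_eq]

theorem pd2_congr_on {O : Set (V n)} (hO : IsOpen O) {f g : V n → ℝ} (hfg : ∀ y ∈ O, f y = g y)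
    {x : V n} (hx : x ∈ O) (i j : Fin n) : pd (pd f j) i x = pd (pd g j) i x :=
  pd_congr_on hO (fun _ hy => pd_congr_on hO hfg hy j) hx i

/-- The second derivatives. -/
noncomputable def T2 (u : V n → ℝ) (i j : Fin n) : V n → ℝ := pd (pd u j) i

/-- The third derivatives. -/
noncomputable def T3 (u : V n → ℝ) (i j k : Fin n) : V n → ℝ := pd (T2 u j k) i

/-- The inverse Hessian, where the determinant is one. -/
noncomputable def G (u : V n → ℝ) (i j : Fin n) : V n → ℝ := fun x => (hessian u x).adjugate i j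

variable {u : V n → ℝ} {O : Set (V n)}

theorem hessian_T2 (h : Sm u) (x : V n) (i j : Fin n) : hessian u x i j = T2 u i j x :=
  P252B.hessian_eq isOpen_univ h.contDiffOn (mem_univ x) i j

theorem sm_T2 (h : Sm u) (i j : Fin n) : Sm (T2 u i j) := (h.pd j).pd i

theorem sm_T3 (h : Sm u) (i j k : Fin n) : Sm (T3 u i j k) := (sm_T2 h j k).pd i

theorem T2_comm (h : Sm u) (i j : Fin n) : T2 u i j = T2 u j i := pd_comm h j i

theorem T3_comm12 (h : Sm u) (i j k : Fin n) : T3 u i j k = T3 u j i k :=
  pd_comm (h.pd k) j i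

theorem T3_comm23 (h : Sm u) (i j k : Fin n) : T3 u i j k = T3 u i k j := by
  unfold T3; rw [T2_comm h]

theorem sm_G (h : Sm u) (i j : Fin n) : Sm (G u i j) :=
  contDiffOn_univ.1 (P252B.contDiffOn_adj isOpen_univ h.contDiffOn i j)

theorem G_eq (h : DetOne u O) {x : V n} (hx : x ∈ O) (i j : Fin n) :
    G u i j x = (hessian u x)⁻¹ i j := by
  simp [G, Matrix.inv_def, h.det x hx]

theorem G_comm (h : Sm u) (i j : Fin n) : G u i j = G u j i := by
  funext x
  have hs : (hessian u x)ᵀ = hessian u x := by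
    ext a b
    rw [Matrix.transpose_apply, hessian_T2 h, hessian_T2 h, T2_comm h]
  show (hessian u x).adjugate i j = (hessian u x).adjugate j i
  conv_lhs => rw [← hs, ← Matrix.adjugate_transpose, Matrix.transpose_apply]

theorem sum_T2_G (h : DetOne u O) {x : V n} (hx : x ∈ O) (i k : Fin n) :
    ∑ j, T2 u i j x * G u j k x = if i = k then 1 else 0 := by
  have e := congrFun (congrFun (Matrix.mul_adjugate (hessian u x)) i) k
  simpa [Matrix.mul_apply, G, hessian_T2 h.sm, h.det x hx, Matrix.one_apply] using e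

theorem sum_G_T2 (h : DetOne u O) {x : V n} (hx : x ∈ O) (i k : Fin n) :
    ∑ j, G u i j x * T2 u j k x = if i = k then 1 else 0 := by
  have e := congrFun (congrFun (Matrix.adjugate_mul (hessian u x)) i) k
  simpa [Matrix.mul_apply, G, hessian_T2 h.sm, h.det x hx, Matrix.one_apply] using e

theorem pd_G (h : DetOne u O) {x : V n} (hx : x ∈ O) (l i j : Fin n) :
    pd (G u i j) l x = -∑ a, (∑ b, G u i b x * T3 u l b a x) * G u a j x := by
  have e : ∀ c, ∑ b, pd (G u i b) l x * T2 u b c x = -∑ b, G u i b x * T3 u l b c x := by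
    intro c
    have h0 : pd (fun y => ∑ b, G u i b y * T2 u b c y) l x = 0 := by
      rw [pd_congr_on h.op (g := fun _ => if i = c then (1 : ℝ) else 0)
        (fun y hy => sum_G_T2 h hy i c) hx]
      exact pd_const _ _ _
    rw [pd_sum (fun b _ => (sm_G h.sm i b).mul (sm_T2 h.sm b c))] at h0
    simp only [pd_mul (sm_G h.sm i _) (sm_T2 h.sm _ c), Finset.sum_add_distrib] at h0
    exact eq_neg_of_add_eq_zero_left h0
  calc pd (G u i j) l x = ∑ b, pd (G u i b) l x * (if b = j then 1 else 0) := by simp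
    _ = ∑ b, pd (G u i b) l x * ∑ c, T2 u b c x * G u c j x := by simp only [sum_T2_G h hx]
    _ = ∑ c, (∑ b, pd (G u i b) l x * T2 u b c x) * G u c j x := by
        simp only [Finset.mul_sum, Finset.sum_mul]
        rw [Finset.sum_comm]
        exact Finset.sum_congr rfl fun c _ => Finset.sum_congr rfl fun b _ => by ring
    _ = _ := by simp only [e, neg_mul, Finset.sum_neg_distrib]

/-- The differentiated determinant equation. -/
theorem trace_T3 (h : DetOne u O) {x : V n} (hx : x ∈ O) (k : Fin n) :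
    ∑ p, ∑ q, G u p q x * T3 u p q k x = 0 := by
  have hd : HasDerivAt (fun t : ℝ => (hessian u (x + t • EuclideanSpace.single k 1)).det)
      (((hessian u x).adjugate * Matrix.of fun i j => T3 u k i j x).trace) 0 := by
    have := P252B.hasDerivAt_det (M := fun t : ℝ => hessian u (x + t • EuclideanSpace.single k 1))
      (M' := Matrix.of fun i j => T3 u k i j x) (t := 0) fun i j => by
        simp only [hessian_T2 h.sm]
        exact ((sm_T2 h.sm i j).diff x).hasFDerivAt.hasLineDerivAt _
    simpa using this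
  have hev : (fun t : ℝ => (hessian u (x + t • EuclideanSpace.single k 1)).det) =ᶠ[nhds 0]
      fun _ => (1 : ℝ) := by
    have hc : ContinuousAt (fun t : ℝ => x + t • EuclideanSpace.single k (1 : ℝ)) 0 := by fun_prop
    filter_upwards [hc.preimage_mem_nhds (h.op.mem_nhds (by simpa using hx))] with t ht
    exact h.det _ ht
  have h0 := (hd.congr_of_eventuallyEq hev.symm).unique (hasDerivAt_const (0 : ℝ) (1 : ℝ))
  simp only [Matrix.trace, Matrix.diag, Matrix.mul_apply, Matrix.of_apply] at h0
  have e : ∀ p q, G u p q x * T3 u p q k x = (hessian u x).adjugate p q * T3 u k q p x := fun p q => by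
    rw [T3_comm23 h.sm p q k, T3_comm12 h.sm p k q, T3_comm23 h.sm k p q]
    rfl
  simp only [e, h0]

/-- The inverse Hessian is divergence free. -/
theorem div_G (h : DetOne u O) {x : V n} (hx : x ∈ O) (j : Fin n) :
    ∑ i, pd (G u i j) i x = 0 :=
  P252B.piola h.op h.sm.contDiffOn h.pos hx j

end Vale.Agent.P252C
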