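import Vale.Agent.P252C.Frame
import Vale.Agent.P100.Linear.Calculus

/-!
The two integral identities on a section and the resulting bound for the squared cubic form.
-/

open Set Matrix Finset MeasureTheory

namespace Vale.Agent.P252C

open Vale.Agent.P252 (hessian)
open Vale.Agent.P252B (V pd)
open Vale.Agent.P100.Linear (pp pp_nonneg hasDerivAt_pp continuous_pp contDiff_pp ibp integrable_supp)

variable {u : V 3 → ℝ} {O : Set (V 3)}

theorem sum_G_pd_WW (h : DetOne u O) {x : V 3} (hx : x ∈ O) (l j : Fin 3) :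
    pd (WW u j) l x = (if j = l then 1 else 0) - ∑ b, ∑ c, G u j b x * T3 u l b c x * WW u c x := by
  unfold WW
  rw [pd_sum (fun a _ => (sm_G h.sm j a).mul (h.sm.pd a))]
  simp only [pd_mul (sm_G h.sm j _) (h.sm.pd _), Finset.sum_add_distrib]
  have e1 : ∑ a, G u j a x * pd (pd u a) l x = if j = l then 1 else 0 := by
    rw [← sum_G_T2 h hx j l]
    refine Finset.sum_congr rfl fun a _ => ?_
    rw [T2_comm h.sm a l]; rfl
  rw [e1]
  simp only [pd_G h hx, neg_mul, Finset.sum_mul, Finset.mul_sum, Finset.sum_neg_distrib]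
  rw [sub_eq_add_neg, add_comm, add_right_inj]
  congr 1
  rw [Finset.sum_congr rfl fun a _ => Finset.sum_comm, Finset.sum_comm]
  refine Finset.sum_congr rfl fun b _ => ?_
  rw [Finset.sum_comm]
  exact Finset.sum_congr rfl fun c _ => Finset.sum_congr rfl fun a _ => by ring

theorem sum_T2_WW (h : DetOne u O) {x : V 3} (hx : x ∈ O) (l : Fin 3) :
    ∑ j, T2 u l j x * WW u j x = pd u l x := by
  simp only [WW, Finset.mul_sum]
  rw [Finset.sum_comm]
  have e : ∀ a, ∑ j, T2 u l j x * (G u j a x * pd u a x) =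
      (if a = l then 1 else 0) * pd u a x := fun a => by
    rw [← sum_G_T2 h hx a l, Finset.sum_mul]
    exact Finset.sum_congr rfl fun j _ => by rw [T2_comm h.sm l j, G_comm h.sm j a]; ring
  simp [e]

theorem pd_QQ (h : DetOne u O) {x : V 3} (hx : x ∈ O) (l : Fin 3) :
    pd (QQ u) l x = 2 * pd u l x - ∑ b, ∑ c, WW u b x * T3 u l b c x * WW u c x := by
  unfold QQ
  rw [pd_sum (fun j _ => (h.sm.pd j).mul (sm_WW h.sm j))]
  simp only [pd_mul (h.sm.pd _) (sm_WW h.sm _), Finset.sum_add_distrib, sum_G_pd_WW h hx, mul_sub,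
    Finset.sum_sub_distrib, mul_ite, mul_one, mul_zero, Finset.sum_ite_eq', Finset.mem_univ,
    if_true]
  have e1 : ∑ j, pd (pd u j) l x * WW u j x = pd u l x := sum_T2_WW h hx l
  have e2 : ∑ j, pd u j x * ∑ b, ∑ c, G u j b x * T3 u l b c x * WW u c x =
      ∑ b, ∑ c, WW u b x * T3 u l b c x * WW u c x := by
    simp only [Finset.mul_sum]
    rw [Finset.sum_comm]
    refine Finset.sum_congr rfl fun b _ => ?_
    rw [Finset.sum_comm]
    refine Finset.sum_congr rfl fun c _ => ?_
    simp only [show WW u b x = ∑ a, G u b a x * pd u a x from rfl, Finset.sum_mul]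
    exact Finset.sum_congr rfl fun j _ => by rw [G_comm h.sm b j]; ring
  rw [e1, e2]
  ring

theorem div_QW (h : DetOne u O) {x : V 3} (hx : x ∈ O) :
    ∑ i, pd (fun y => QQ u y * WW u i y) i x = 5 * QQ u x - C3 u x := by
  simp only [pd_mul (sm_QQ h.sm) (sm_WW h.sm _), Finset.sum_add_distrib, ← Finset.mul_sum]
  have e1 : ∑ i, pd (WW u i) i x = 3 := by
    simp only [sum_G_pd_WW h hx, if_true, Finset.sum_sub_distrib]
    have : ∑ i, ∑ b, ∑ c, G u i b x * T3 u i b c x * WW u c x = 0 := by
      rw [Finset.sum_congr rfl fun i _ => Finset.sum_comm, Finset.sum_comm]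
      simp [← Finset.sum_mul, trace_T3 h hx]
    rw [this]
    simp
  have e2 : ∑ i, pd (QQ u) i x * WW u i x = 2 * QQ u x - C3 u x := by
    simp only [pd_QQ h hx, sub_mul, Finset.sum_sub_distrib]
    congr 1
    · simp only [QQ, Finset.mul_sum, mul_assoc]
    · simp only [C3, Finset.sum_mul]
      exact Finset.sum_congr rfl fun i _ => Finset.sum_congr rfl fun b _ =>
        Finset.sum_congr rfl fun c _ => by ring
  rw [e1, e2]
  ring

theorem div_GR (h : DetOne u O) {x : V 3} (hx : x ∈ O) :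
    ∑ i, pd (fun y => ∑ j, G u i j y * pd (RR u) j y) i x = lap u (RR u) x := by
  simp only [pd_sum (fun j _ => (sm_G h.sm _ j).mul ((sm_RR h.sm).pd j)),
    pd_mul (sm_G h.sm _ _) ((sm_RR h.sm).pd _), Finset.sum_add_distrib]
  have : ∑ i, ∑ j, pd (G u i j) i x * pd (RR u) j x = 0 := by
    rw [Finset.sum_comm]
    simp [← Finset.sum_mul, div_G h hx]
  rw [this, zero_add]
  rfl

theorem cont (f : V 3 → ℝ) (hf : Sm f) : Continuous f := ContDiff.continuous hf

/-- Integration by parts against a power of the cutoff. -/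
theorem ibp_cut (h : DetOne u O) {H : ℝ} {K : Set (V 3)} (hK : IsCompact K)
    (hKS : ∀ x, u x < H → x ∈ K) (k : ℕ) {g : Fin 3 → V 3 → ℝ} (hg : ∀ i, Sm (g i)) :
    ∫ x, pp (k + 3) (H - u x) * ∑ i, pd (g i) i x =
      ((k : ℝ) + 3) * ∫ x, pp (k + 2) (H - u x) * ∑ i, pd u i x * g i x := by
  have hF : ContDiff ℝ 1 fun x => pp (k + 3) (H - u x) :=
    ((contDiff_pp k).of_le (by norm_num)).comp
      (contDiff_const.sub (ContDiff.of_le h.sm (by simp)))
  have hz : ∀ (m : ℕ) x, x ∉ K → pp (m + 1) (H - u x) = 0 := fun m x hx =>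
    P100.Linear.pp_eq_zero (by omega) (by
      by_contra h'
      exact hx (hKS x (by linarith [not_le.1 h'])))
  have hd : ∀ i x, fderiv ℝ (fun x => pp (k + 3) (H - u x)) x (EuclideanSpace.single i 1) =
      -(((k : ℝ) + 3) * pp (k + 2) (H - u x) * pd u i x) := by
    intro i x
    have h1 := (hasDerivAt_pp (k + 1) (H - u x)).comp_hasFDerivAt x
      ((h.sm.diff x).hasFDerivAt.const_sub H)
    rw [show (fun x => pp (k + 3) (H - u x)) = pp (k + 1 + 2) ∘ fun x => H - u x from rfl, h1.fderiv]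
    simp only [_root_.smul_apply, _root_.neg_apply, smul_eq_mul, P252B.pd]
    push_cast
    ring
  have hi : ∀ i, Integrable fun x => pp (k + 3) (H - u x) * pd (g i) i x := fun i =>
    integrable_supp hK (fun x _ => (hF.continuous.mul (cont _ ((hg i).pd i))).continuousAt)
      fun x hx => by simp [hz (k + 2) x hx]
  have hj : ∀ i, Integrable fun x => pp (k + 2) (H - u x) * (pd u i x * g i x) := fun i =>
    integrable_supp hK (fun x _ => (((continuous_pp _).comp (continuous_const.sub (cont _ h.sm))).mul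
      ((cont _ (h.sm.pd i)).mul (cont _ (hg i)))).continuousAt)
      fun x hx => by simp [hz (k + 1) x hx]
  simp only [Finset.mul_sum]
  rw [integral_finsetSum _ fun i _ => hi i, integral_finsetSum _ fun i _ => hj i, Finset.mul_sum]
  refine Finset.sum_congr rfl fun i _ => ?_
  rw [show (∫ x, pp (k + 3) (H - u x) * pd (g i) i x) = _ from
    ibp hK hF (fun x hx => hz (k + 2) x hx)
      (fun x _ => (ContDiff.of_le (hg i) (by simp)).contDiffAt) (EuclideanSpace.single i 1)]
  rw [← integral_const_mul, ← integral_neg]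
  exact integral_congr_ae (Filter.Eventually.of_forall fun x => by simp only [hd]; ring)

theorem quartic {Y Q : ℝ} (hY : 0 ≤ Y) (hQ : 0 ≤ Q) :
    2 / 5 * Y * Q ^ 3 ≤ (48 / 5 * Q ^ 2 + Y ^ 2 / 50000) ^ 2 := by
  nlinarith [sq_nonneg (Y - 400 * Q), sq_nonneg (Y ^ 2 - 160000 * Q ^ 2),
    mul_nonneg (mul_nonneg hY hQ) (sq_nonneg (Y - 400 * Q)),
    mul_nonneg (sq_nonneg Q) (sq_nonneg (Y - 400 * Q)),
    mul_nonneg (sq_nonneg Y) (sq_nonneg (Y - 400 * Q)), mul_nonneg hY hQ,
    mul_nonneg (mul_nonneg hY hQ) (sq_nonneg Q)]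

/-- The energy bound on a section. -/
theorem energy (h : DetOne u O) {H : ℝ} {K : Set (V 3)} (hK : IsCompact K) (hKO : K ⊆ O)
    (hKS : ∀ x, u x < H → x ∈ K) :
    ∫ x, pp 16 (H - u x) * RR u x ^ 2 ≤ 10 ^ 8 * ∫ x, pp 14 (H - u x) := by
  set v : V 3 → ℝ := fun x => max (H - u x) 0 with hv
  have hpp : ∀ m x, pp m (H - u x) = v x ^ m := fun m x => rfl
  have hvc : Continuous v := (continuous_const.sub (cont _ h.sm)).max continuous_const
  have hz : ∀ x, x ∉ K → v x = 0 := fun x hx => max_eq_right (by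
    by_contra h'
    exact hx (hKS x (by linarith [not_le.1 h'])))
  have hout : ∀ x, x ∉ O → v x = 0 := fun x hx => hz x fun h' => hx (hKO h')
  have hint : ∀ (f : V 3 → ℝ) (m : ℕ), Continuous f → Integrable fun x => v x ^ (m + 1) * f x :=
    fun f m hf => integrable_supp hK (fun x _ => ((hvc.pow _).mul hf).continuousAt)
      fun x hx => by simp [hz x hx]
  have cR := cont _ (sm_RR h.sm)
  have cQ := cont _ (sm_QQ h.sm)
  have cL : Continuous (lap u (RR u)) :=
    continuous_finsetSum _ fun i _ => continuous_finsetSum _ fun j _ =>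
      (cont _ (sm_G h.sm i j)).mul (cont _ (((sm_RR h.sm).pd j).pd i))
  have cI : Continuous (ip u u (RR u)) :=
    continuous_finsetSum _ fun i _ => continuous_finsetSum _ fun j _ =>
      ((cont _ (sm_G h.sm i j)).mul (cont _ (h.sm.pd i))).mul (cont _ ((sm_RR h.sm).pd j))
  have cC : Continuous (C3 u) :=
    continuous_finsetSum _ fun i _ => continuous_finsetSum _ fun j _ =>
      continuous_finsetSum _ fun k _ => (cont _ (sm_T3 h.sm i j k)).mul
        (((cont _ (sm_WW h.sm i)).mul (cont _ (sm_WW h.sm j))).mul (cont _ (sm_WW h.sm k)))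
  -- first identity
  have i1 : ∫ x, v x ^ 16 * lap u (RR u) x = 16 * ∫ x, v x ^ 15 * ip u u (RR u) x := by
    have e := ibp_cut h hK hKS 13 (g := fun i y => ∑ j, G u i j y * pd (RR u) j y)
      (fun i => sm_sum fun j _ => (sm_G h.sm i j).mul ((sm_RR h.sm).pd j))
    simp only [hpp] at e
    rw [show (∫ x, v x ^ 16 * lap u (RR u) x) = ∫ x, v x ^ (13 + 3) *
        ∑ i, pd (fun y => ∑ j, G u i j y * pd (RR u) j y) i x from
      integral_congr_ae (Filter.Eventually.of_forall fun x => by
        by_cases hx : x ∈ O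
        · simp [← div_GR h hx]
        · simp [hout x hx])]
    rw [e, show ((13 : ℕ) : ℝ) + 3 = 16 by norm_num]
    congr 1
    refine integral_congr_ae (Filter.Eventually.of_forall fun x => ?_)
    simp only [ip, Finset.mul_sum]
    refine Finset.sum_congr rfl fun i _ => Finset.sum_congr rfl fun j _ => ?_
    ring
  -- second identity
  have i2 : ∫ x, v x ^ 13 * (5 * QQ u x - C3 u x) = 13 * ∫ x, v x ^ 12 * QQ u x ^ 2 := by
    have e := ibp_cut h hK hKS 10 (g := fun i y => QQ u y * WW u i y)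
      (fun i => (sm_QQ h.sm).mul (sm_WW h.sm i))
    simp only [hpp] at e
    rw [show (∫ x, v x ^ 13 * (5 * QQ u x - C3 u x)) = ∫ x, v x ^ (10 + 3) *
        ∑ i, pd (fun y => QQ u y * WW u i y) i x from
      integral_congr_ae (Filter.Eventually.of_forall fun x => by
        by_cases hx : x ∈ O
        · simp [← div_QW h hx]
        · simp [hout x hx])]
    rw [e, show ((10 : ℕ) : ℝ) + 3 = 13 by norm_num]
    congr 1
    refine integral_congr_ae (Filter.Eventually.of_forall fun x => ?_)
    have : ∑ i, pd u i x * (QQ u x * WW u i x) = QQ u x ^ 2 := by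
      rw [sq]
      conv_rhs => enter [2]; rw [show QQ u x = ∑ i, pd u i x * WW u i x from rfl]
      rw [Finset.mul_sum]
      exact Finset.sum_congr rfl fun i _ => by ring
    simp only [this]
  set Y := ∫ x, v x ^ 16 * RR u x ^ 2 with hY
  set X := ∫ x, v x ^ 12 * QQ u x ^ 2 with hX
  set M := ∫ x, v x ^ 14 with hM
  have jY : Integrable fun x => v x ^ 16 * RR u x ^ 2 := hint _ 15 (cR.pow 2)
  have jX : Integrable fun x => v x ^ 12 * QQ u x ^ 2 := hint _ 11 (cQ.pow 2)
  have jM : Integrable fun x => v x ^ 14 := by simpa using hint _ 13 (continuous_const (y := (1 : ℝ)))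
  have jS : Integrable fun x => v x ^ 14 * (QQ u x * RR u x) := hint _ 13 (cQ.mul cR)
  have jL : Integrable fun x => v x ^ 16 * lap u (RR u) x := hint _ 15 cL
  have jI : Integrable fun x => 16 * (v x ^ 15 * ip u u (RR u) x) := (hint _ 14 cI).const_mul 16
  have jA : Integrable fun x => v x ^ 16 * lap u (RR u) x - 16 * (v x ^ 15 * ip u u (RR u) x) :=
    jL.sub jI
  have jB : Integrable fun x =>
      (1 / 10 + 48 / 5 : ℝ) * (v x ^ 12 * QQ u x ^ 2) + v x ^ 16 * RR u x ^ 2 / 50000 :=
    (jX.const_mul _).add (jY.div_const _)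
  -- the Calabi inequality integrated
  have a1 : Y / 3 ≤ 128 * ∫ x, v x ^ 14 * (QQ u x * RR u x) := by
    have hle : ∫ x, v x ^ 16 * RR u x ^ 2 / 3 ≤ ∫ x, (v x ^ 16 * lap u (RR u) x -
        16 * (v x ^ 15 * ip u u (RR u) x) + 128 * (v x ^ 14 * (QQ u x * RR u x))) := by
      refine integral_mono (jY.div_const 3)
        (jA.add (jS.const_mul 128)) fun x => ?_
      by_cases hxO : x ∈ O
      case neg => simp [hout x hxO]
      have h0 : 0 ≤ v x := le_max_right _ _
      have := mul_le_mul_of_nonneg_left (weighted h hxO (v x) 16) (pow_nonneg h0 14)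
      linarith
    rw [integral_add jA (jS.const_mul 128), integral_sub jL jI, integral_const_mul,
      integral_const_mul, integral_div, i1] at hle
    linarith
  have a2 : 13 * X ≤ (1 / 10 + 48 / 5) * X + Y / 50000 + 125 / 2 * M := by
    rw [← i2, hY, hX, hM, ← integral_const_mul, ← integral_const_mul, ← integral_div,
      ← integral_add (jX.const_mul _) (jY.div_const _),
      ← integral_add jB (jM.const_mul _)]
    refine integral_mono (hint _ 12 ((continuous_const.mul cQ).sub cC))
      (jB.add (jM.const_mul _)) fun x => ?_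
    by_cases hxO : x ∈ O
    case neg => simp [hout x hxO]
    have h0 : 0 ≤ v x := le_max_right _ _
    have hR := RR_nonneg h hxO
    have hQ := QQ_nonneg h hxO
    have hc := cubic h hxO
    have hC : -C3 u x * v x ≤ 48 / 5 * QQ u x ^ 2 + (v x ^ 2 * RR u x) ^ 2 / 50000 := by
      refine (le_abs_self _).trans (abs_le_of_sq_le_sq ?_ (by positivity))
      calc (-C3 u x * v x) ^ 2 = C3 u x ^ 2 * v x ^ 2 := by ring
        _ ≤ 2 / 5 * RR u x * QQ u x ^ 3 * v x ^ 2 := mul_le_mul_of_nonneg_right hc (sq_nonneg _)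
        _ = 2 / 5 * (v x ^ 2 * RR u x) * QQ u x ^ 3 := by ring
        _ ≤ _ := quartic (by positivity) hQ
    have h5 : 5 * QQ u x * v x ≤ 1 / 10 * QQ u x ^ 2 + 125 / 2 * v x ^ 2 := by
      nlinarith [sq_nonneg (QQ u x - 25 * v x)]
    have := mul_le_mul_of_nonneg_left (add_le_add h5 hC) (pow_nonneg h0 12)
    linarith
  have a3 : ∫ x, v x ^ 14 * (QQ u x * RR u x) ≤ 246 / 200000 * Y + 200000 / 984 * X := by
    rw [hY, hX, ← integral_const_mul, ← integral_const_mul,
      ← integral_add (jY.const_mul _) (jX.const_mul _)]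
    refine integral_mono jS ((jY.const_mul _).add (jX.const_mul _)) fun x => ?_
    have h0 : 0 ≤ v x := le_max_right _ _
    have : v x ^ 2 * (QQ u x * RR u x) ≤
        246 / 200000 * (v x ^ 4 * RR u x ^ 2) + 200000 / 984 * QQ u x ^ 2 := by
      nlinarith [sq_nonneg (246 / 100000 * (v x ^ 2 * RR u x) - QQ u x)]
    have := mul_le_mul_of_nonneg_left this (pow_nonneg h0 12)
    linarith
  have hM0 : 0 ≤ M := integral_nonneg fun x => by positivity
  have hX0 : 0 ≤ X := integral_nonneg fun x => by positivity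
  simp only [hpp]
  linarith

end Vale.Agent.P252C
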