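import Vale.Agent.P252C.Point
import Vale.Agent.P252B.Convex

/-!
Covariance under linear changes of variable, giving the pointwise inequalities everywhere.
-/

open Set Matrix Finset
open scoped MatrixOrder

namespace Vale.Agent.P252C

open Vale.Agent.P252 (hessian)
open Vale.Agent.P252B (V pd)

variable {n : ℕ}

/-- The linear map of a matrix. -/
noncomputable def lin (T : Matrix (Fin n) (Fin n) ℝ) : V n →L[ℝ] V n :=
  Matrix.toEuclideanCLM (𝕜 := ℝ) T

/-- Contraction with a matrix. -/
def con (M F : Fin n → Fin n → ℝ) : ℝ := ∑ i, ∑ j, M i j * F i j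

theorem lin_apply (T : Matrix (Fin n) (Fin n) ℝ) (y : V n) (a : Fin n) :
    lin T y a = ∑ i, T a i * y i := by
  simp [lin, Matrix.mulVec, dotProduct]

theorem pd_lin (T : Matrix (Fin n) (Fin n) ℝ) {f : V n → ℝ} (hf : Sm f) (i : Fin n) :
    pd (fun y => f (lin T y)) i = fun x => ∑ a, T a i * pd f a (lin T x) := by
  funext x
  have hd : HasFDerivAt (fun y => f (lin T y)) ((fderiv ℝ f (lin T x)).comp (lin T)) x :=
    (hf.diff _).hasFDerivAt.comp x (lin T).hasFDerivAt
  show fderiv ℝ (fun y => f (lin T y)) x _ = _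
  rw [hd.fderiv, ContinuousLinearMap.comp_apply, P252B.fderiv_apply_sum]
  refine Finset.sum_congr rfl fun a _ => ?_
  simp [lin_apply]

theorem sm_lin (T : Matrix (Fin n) (Fin n) ℝ) {f : V n → ℝ} (hf : Sm f) :
    Sm (fun y => f (lin T y)) :=
  ContDiff.comp hf (lin T).contDiff

theorem pd2_lin (T : Matrix (Fin n) (Fin n) ℝ) {f : V n → ℝ} (hf : Sm f) (i j : Fin n) (x : V n) :
    pd (pd (fun y => f (lin T y)) j) i x = ∑ a, ∑ b, T a i * T b j * pd (pd f b) a (lin T x) := by
  rw [pd_lin T hf j, pd_sum (fun b _ => (sm_const (T b j)).mul (sm_lin T (hf.pd b)))]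
  simp only [pd_mul (sm_const _) (sm_lin T (hf.pd _)), pd_const, zero_mul, zero_add,
    pd_lin T (hf.pd _), Finset.mul_sum]
  rw [Finset.sum_comm]
  exact Finset.sum_congr rfl fun a _ => Finset.sum_congr rfl fun b _ => by ring

section Change

variable {u : V n → ℝ} {O : Set (V n)} {T : Matrix (Fin n) (Fin n) ℝ}

theorem hessian_lin (hu : Sm u) (T : Matrix (Fin n) (Fin n) ℝ) (x : V n) :
    hessian (fun y => u (lin T y)) x = Tᵀ * hessian u (lin T x) * T := by
  ext i j
  rw [hessian_T2 (sm_lin T hu), T2, pd2_lin T hu]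
  simp only [Matrix.mul_apply, Matrix.transpose_apply, Finset.sum_mul, hessian_T2 hu, T2]
  rw [Finset.sum_comm]
  exact Finset.sum_congr rfl fun a _ => Finset.sum_congr rfl fun b _ => by ring

theorem detOne_lin (h : DetOne u O) (hT : T.det ^ 2 = 1) :
    DetOne (fun y => u (lin T y)) (lin T ⁻¹' O) where
  sm := sm_lin T h.sm
  op := h.op.preimage (lin T).continuous
  pos x hx := by
    have hT0 : T.det ≠ 0 := fun h0 => by simp [h0] at hT
    rw [hessian_lin h.sm]
    have := (h.pos (lin T x) hx).conjTranspose_mul_mul_same (B := T)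
      (Matrix.mulVec_injective_of_isUnit ((Matrix.isUnit_iff_isUnit_det T).2 (Ne.isUnit hT0)))
    simpa [Matrix.conjTranspose_eq_transpose_of_trivial] using this
  det x hx := by
    rw [hessian_lin h.sm, Matrix.det_mul, Matrix.det_mul, Matrix.det_transpose, h.det _ hx,
      mul_one, ← sq, hT]

theorem con_lin (h : DetOne u O) (hT : T.det ^ 2 = 1) {x : V n} (hx : lin T x ∈ O) (F : Fin n → Fin n → ℝ) :
    con (fun i j => G (fun y => u (lin T y)) i j x)
      (fun i j => ∑ a, ∑ b, T a i * T b j * F a b) = con (fun a b => G u a b (lin T x)) F := by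
  have hT0 : T.det ≠ 0 := fun h0 => by simp [h0] at hT
  have key : T * (hessian (fun y => u (lin T y)) x)⁻¹ * Tᵀ = (hessian u (lin T x))⁻¹ := by
    rw [hessian_lin h.sm, Matrix.mul_inv_rev, Matrix.mul_inv_rev]
    have h1 : IsUnit T.det := Ne.isUnit hT0
    have h2 : IsUnit Tᵀ.det := by rwa [Matrix.det_transpose]
    simp only [Matrix.mul_assoc, Matrix.nonsing_inv_mul _ h2, Matrix.mul_one]
    rw [← Matrix.mul_assoc, Matrix.mul_nonsing_inv _ h1, Matrix.one_mul]
  have e : ∀ a b, G u a b (lin T x) =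
      ∑ i, ∑ j, T a i * G (fun y => u (lin T y)) i j x * T b j := by
    intro a b
    rw [G_eq h hx, ← key]
    simp only [Matrix.mul_apply, Matrix.transpose_apply, Finset.sum_mul,
      G_eq (detOne_lin h hT) (show x ∈ lin T ⁻¹' O from hx)]
    exact Finset.sum_comm
  simp only [con, e, Finset.mul_sum, Finset.sum_mul]
  rw [Finset.sum_congr rfl fun i _ => Finset.sum_comm, Finset.sum_comm]
  refine Finset.sum_congr rfl fun a _ => ?_
  rw [Finset.sum_congr rfl fun i _ => Finset.sum_comm, Finset.sum_comm]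
  exact Finset.sum_congr rfl fun b _ => Finset.sum_congr rfl fun i _ =>
    Finset.sum_congr rfl fun j _ => by ring

theorem T3_lin (hu : Sm u) (i j k : Fin n) (x : V n) :
    T3 (fun y => u (lin T y)) i j k x =
      ∑ a, ∑ b, ∑ c, T a i * T b j * T c k * T3 u a b c (lin T x) := by
  have e : T2 (fun y => u (lin T y)) j k =
      fun y => ∑ b, ∑ c, T b j * T c k * T2 u b c (lin T y) := funext (pd2_lin T hu j k)
  show pd (T2 (fun y => u (lin T y)) j k) i x = _
  rw [e, pd_sum (fun b _ => sm_sum fun c _ =>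
    (sm_const (T b j * T c k)).mul (sm_lin T (sm_T2 hu b c)))]
  simp only [pd_sum (fun c _ => (sm_const (T _ j * T c k)).mul (sm_lin T (sm_T2 hu _ c))),
    pd_mul (sm_const _) (sm_lin T (sm_T2 hu _ _)), pd_const, zero_mul, zero_add,
    pd_lin T (sm_T2 hu _ _), Finset.mul_sum]
  rw [Finset.sum_congr rfl fun b _ => Finset.sum_comm, Finset.sum_comm]
  refine Finset.sum_congr rfl fun a _ => Finset.sum_congr rfl fun b _ =>
    Finset.sum_congr rfl fun c _ => ?_
  rw [T3]
  ring

theorem con_sum (M : Fin n → Fin n → ℝ) (c : Fin n → Fin n → ℝ)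
    (F : Fin n → Fin n → Fin n → Fin n → ℝ) :
    (con M fun i j => ∑ a, ∑ b, c a b * F a b i j) = ∑ a, ∑ b, c a b * con M (F a b) := by
  simp only [con, Finset.mul_sum]
  rw [Finset.sum_congr rfl fun i _ => Finset.sum_comm, Finset.sum_comm]
  refine Finset.sum_congr rfl fun a _ => ?_
  rw [Finset.sum_congr rfl fun i _ => Finset.sum_comm, Finset.sum_comm]
  exact Finset.sum_congr rfl fun b _ => Finset.sum_congr rfl fun i _ =>
    Finset.sum_congr rfl fun j _ => by ring

theorem sum_swap_mul (α β : Fin n → ℝ) (F : Fin n → Fin n → ℝ) :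
    ∑ p, ∑ q, α p * β q * F p q = ∑ q, β q * ∑ p, α p * F p q := by
  simp only [Finset.mul_sum]
  rw [Finset.sum_comm]
  exact Finset.sum_congr rfl fun q _ => Finset.sum_congr rfl fun p _ => by ring

theorem RR_con (u : V n → ℝ) (x : V n) : RR u x =
    con (fun i a => G u i a x) fun i a => con (fun j b => G u j b x) fun j b =>
      con (fun k c => G u k c x) fun k c => T3 u i b k x * T3 u a c j x := by
  simp only [RR, PP, MM, con, Finset.mul_sum, Finset.sum_mul]
  refine Finset.sum_congr rfl fun i _ => Finset.sum_congr rfl fun a _ => ?_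
  refine Finset.sum_congr rfl fun j _ => ?_
  rw [Finset.sum_congr rfl fun k _ => Finset.sum_comm, Finset.sum_comm]
  exact Finset.sum_congr rfl fun b _ => Finset.sum_congr rfl fun k _ =>
    Finset.sum_congr rfl fun c _ => by ring

theorem RR_lin (h : DetOne u O) (hT : T.det ^ 2 = 1) {x : V n} (hx : lin T x ∈ O) :
    RR (fun y => u (lin T y)) x = RR u (lin T x) := by
  rw [RR_con, RR_con u]
  set S : Fin n → Fin n → Fin n → ℝ := fun a b c => T3 u a b c (lin T x) with hS
  have h1 : ∀ i a j b, (con (fun k c => G (fun y => u (lin T y)) k c x) fun k c =>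
      T3 (fun y => u (lin T y)) i b k x * T3 (fun y => u (lin T y)) a c j x) =
      con (fun k c => G u k c (lin T x)) fun k' c' =>
        (∑ p, ∑ q, T p i * T q b * S p q k') * (∑ r, ∑ s, T r a * T s j * S r c' s) := by
    intro i a j b
    rw [← con_lin h hT hx]
    congr 1
    funext k c
    simp only [T3_lin h.sm]
    have e1 : ∑ p, ∑ q, ∑ k', T p i * T q b * T k' k * T3 u p q k' (lin T x) =
        ∑ k', T k' k * ∑ p, ∑ q, T p i * T q b * S p q k' := by
      simp only [Finset.mul_sum, hS]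
      rw [Finset.sum_congr rfl fun p _ => Finset.sum_comm, Finset.sum_comm]
      exact Finset.sum_congr rfl fun k' _ => Finset.sum_congr rfl fun p _ =>
        Finset.sum_congr rfl fun q _ => by ring
    have e2 : ∑ r, ∑ c', ∑ s, T r a * T c' c * T s j * T3 u r c' s (lin T x) =
        ∑ c', T c' c * ∑ r, ∑ s, T r a * T s j * S r c' s := by
      simp only [Finset.mul_sum, hS]
      rw [Finset.sum_comm]
      exact Finset.sum_congr rfl fun c' _ => Finset.sum_congr rfl fun r _ =>
        Finset.sum_congr rfl fun s _ => by ring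
    rw [e1, e2, Finset.sum_mul_sum]
    exact Finset.sum_congr rfl fun k' _ => Finset.sum_congr rfl fun c' _ => by ring
  simp only [h1]
  have h2 : ∀ i a, (con (fun j b => G (fun y => u (lin T y)) j b x) fun j b =>
      con (fun k c => G u k c (lin T x)) fun k' c' =>
        (∑ p, ∑ q, T p i * T q b * S p q k') * (∑ r, ∑ s, T r a * T s j * S r c' s)) =
      con (fun j b => G u j b (lin T x)) fun s q =>
        con (fun k c => G u k c (lin T x)) fun k' c' =>
          (∑ p, T p i * S p q k') * (∑ r, T r a * S r c' s) := by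
    intro i a
    rw [← con_lin h hT hx]
    congr 1
    funext j b
    rw [← con_sum]
    congr 1
    funext k' c'
    rw [sum_swap_mul (fun p => T p i) (fun q => T q b), sum_swap_mul (fun r => T r a) (fun s => T s j)
      (fun r s => S r c' s), Finset.sum_mul_sum, Finset.sum_comm]
    exact Finset.sum_congr rfl fun s _ => Finset.sum_congr rfl fun q _ => by ring
  simp only [h2]
  rw [← con_lin h hT hx]
  congr 1
  funext i a
  rw [← con_sum]
  congr 1
  funext s q
  rw [← con_sum]
  congr 1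
  funext k' c'
  rw [Finset.sum_mul_sum]
  exact Finset.sum_congr rfl fun p _ => Finset.sum_congr rfl fun r _ => by ring

theorem ip_lin (h : DetOne u O) (hT : T.det ^ 2 = 1) {f g : V n → ℝ} (hf : Sm f) (hg : Sm g)
    {x : V n} (hx : lin T x ∈ O) : ip (fun y => u (lin T y)) (fun y => f (lin T y)) (fun y => g (lin T y)) x =
      ip u f g (lin T x) := by
  have e := con_lin h hT hx fun a b => pd f a (lin T x) * pd g b (lin T x)
  simp only [con, ← mul_assoc] at e
  rw [show ip u f g (lin T x) = _ from e.symm]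
  simp only [ip, pd_lin T hf, pd_lin T hg, mul_assoc, Finset.mul_sum, Finset.sum_mul]
  refine Finset.sum_congr rfl fun i _ => Finset.sum_congr rfl fun j _ => ?_
  rw [Finset.sum_comm]
  exact Finset.sum_congr rfl fun a _ => Finset.sum_congr rfl fun b _ => by ring

theorem lap_lin (h : DetOne u O) (hT : T.det ^ 2 = 1) {f : V n → ℝ} (hf : Sm f) {x : V n}
    (hx : lin T x ∈ O) : lap (fun y => u (lin T y)) (fun y => f (lin T y)) x = lap u f (lin T x) := by
  have e := con_lin h hT hx fun a b => pd (pd f b) a (lin T x)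
  simp only [con] at e
  rw [show lap u f (lin T x) = _ from e.symm]
  simp only [lap, pd2_lin T hf]

theorem QQ_eq_ip (u : V n → ℝ) (x : V n) : QQ u x = ip u u u x := by
  simp only [QQ, WW, ip, Finset.mul_sum]
  exact Finset.sum_congr rfl fun j _ => Finset.sum_congr rfl fun a _ => by ring

theorem QQ_lin (h : DetOne u O) (hT : T.det ^ 2 = 1) {x : V n}
    (hx : lin T x ∈ O) : QQ (fun y => u (lin T y)) x = QQ u (lin T x) := by
  rw [QQ_eq_ip, QQ_eq_ip u, ip_lin h hT h.sm h.sm hx]

theorem WW_lin (h : DetOne u O) (hT : T.det ^ 2 = 1) {x : V n} (hx : lin T x ∈ O) (a : Fin n) :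
    ∑ i, T a i * WW (fun y => u (lin T y)) i x = WW u a (lin T x) := by
  have e := con_lin h hT hx fun p b => (if p = a then 1 else 0) * pd u b (lin T x)
  simp only [con, ite_mul, one_mul, zero_mul, mul_ite, mul_zero] at e
  rw [Finset.sum_comm (f := fun p b => if p = a then G u p b (lin T x) * pd u b (lin T x) else 0)]
    at e
  simp only [Finset.sum_ite_eq', Finset.mem_univ, if_true] at e
  rw [show WW u a (lin T x) = _ from e.symm]
  simp only [WW, pd_lin T h.sm, Finset.mul_sum]
  refine Finset.sum_congr rfl fun i _ => Finset.sum_congr rfl fun j _ => ?_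
  rw [Finset.sum_comm]
  refine Finset.sum_congr rfl fun b _ => ?_
  simp [mul_assoc, mul_left_comm]

theorem C3_lin (h : DetOne u O) (hT : T.det ^ 2 = 1) {x : V n}
    (hx : lin T x ∈ O) : C3 (fun y => u (lin T y)) x = C3 u (lin T x) := by
  simp only [C3, ← WW_lin h hT hx, T3_lin h.sm, Finset.sum_mul, Finset.mul_sum]
  simp only [← Fintype.sum_prod_type']
  exact Finset.sum_nbij' (fun y => (y.2.2.2.1, y.2.2.2.2.1, y.2.2.2.2.2, y.2.2.1, y.2.1, y.1))
    (fun y => (y.2.2.2.2.2, y.2.2.2.2.1, y.2.2.2.1, y.1, y.2.1, y.2.2.1)) (by simp) (by simp)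
    (by simp) (by simp) (fun y _ => by ring)

theorem G_lin_one (h : DetOne u O) {x : V n} (hx : lin T x ∈ O)
    (hTT : T * Tᵀ = (hessian u (lin T x))⁻¹) (i j : Fin n) :
    G (fun y => u (lin T y)) i j x = if i = j then 1 else 0 := by
  have hH : hessian (fun y => u (lin T y)) x = 1 := by
    rw [hessian_lin h.sm]
    have hinv : IsUnit (hessian u (lin T x)).det :=
      isUnit_iff_ne_zero.2 (h.pos _ hx).det_pos.ne'
    have e : hessian u (lin T x) * (T * Tᵀ) = 1 := by rw [hTT, Matrix.mul_nonsing_inv _ hinv]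
    have e2 : (hessian u (lin T x) * T) * Tᵀ = 1 := by rw [Matrix.mul_assoc]; exact e
    rw [Matrix.mul_assoc]
    exact mul_eq_one_comm.1 e2
  simp [G, hH, Matrix.one_apply]

end Change

theorem exists_factor {M : Matrix (Fin n) (Fin n) ℝ} (hM : M.PosDef) :
    ∃ T : Matrix (Fin n) (Fin n) ℝ, T * Tᵀ = M := by
  obtain ⟨Q, -, h⟩ : ∃ Q : Matrix (Fin n) (Fin n) ℝ, IsUnit Q ∧ M = star Q * Q :=
    CStarAlgebra.isStrictlyPositive_iff_eq_star_mul_self.1 hM.isStrictlyPositive
  refine ⟨Qᵀ, ?_⟩
  rw [h, Matrix.transpose_transpose, Matrix.star_eq_conjTranspose,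
    Matrix.conjTranspose_eq_transpose_of_trivial]

variable {u : V 3 → ℝ} {O : Set (V 3)}

theorem exists_frame (h : DetOne u O) {z : V 3} (hz : z ∈ O) :
    ∃ (T : Matrix (Fin 3) (Fin 3) ℝ) (x : V 3), T.det ^ 2 = 1 ∧ lin T x = z ∧
      lin T x ∈ O ∧ ∀ i j, G (fun y => u (lin T y)) i j x = if i = j then 1 else 0 := by
  obtain ⟨T, hTT⟩ := exists_factor (h.pos z hz).inv
  have hT : T.det ^ 2 = 1 := by
    have e := congrArg Matrix.det hTT
    rw [Matrix.det_mul, Matrix.det_transpose, Matrix.det_nonsing_inv, h.det z hz,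
      Ring.inverse_one] at e
    rw [sq, e]
  have hT0 : T.det ≠ 0 := fun h0 => by simp [h0] at hT
  have hx : lin T (lin T⁻¹ z) = z := by
    rw [← ContinuousLinearMap.mul_apply, lin, lin, ← map_mul,
      Matrix.mul_nonsing_inv _ (Ne.isUnit hT0), map_one, ContinuousLinearMap.one_apply]
  exact ⟨T, lin T⁻¹ z, hT, hx, hx.symm ▸ hz,
    G_lin_one h (hx.symm ▸ hz) (by rw [hx]; exact hTT)⟩

/-- The Calabi inequality in the weighted form that is integrated. -/
theorem weighted (h : DetOne u O) {z : V 3} (hz : z ∈ O) (v k : ℝ) :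
    v ^ 2 * RR u z ^ 2 / 3 ≤ v ^ 2 * lap u (RR u) z - k * v * ip u u (RR u) z +
      k ^ 2 / 2 * QQ u z * RR u z := by
  obtain ⟨T, x, hT, hx, hxO, hG⟩ := exists_frame h hz
  have h' := weighted_pt (detOne_lin h hT) hxO hG v k
  have hRc : ∀ y ∈ lin T ⁻¹' O, RR (fun w => u (lin T w)) y = RR u (lin T y) :=
    fun y hy => RR_lin h hT hy
  have hop := (detOne_lin h hT).op
  have e1 : lap (fun w => u (lin T w)) (RR fun w => u (lin T w)) x = lap u (RR u) (lin T x) := by
    rw [← lap_lin h hT (sm_RR h.sm) hxO]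
    simp only [lap, pd2_congr_on hop hRc hxO]
  have e2 : ip (fun w => u (lin T w)) (fun w => u (lin T w)) (RR fun w => u (lin T w)) x =
      ip u u (RR u) (lin T x) := by
    rw [← ip_lin h hT h.sm (sm_RR h.sm) hxO]
    simp only [ip, pd_congr_on hop hRc hxO]
  rw [e1, e2, RR_lin h hT hxO, QQ_lin h hT hxO, hx] at h'
  exact h'

/-- The bound for the cubic form on the gradient. -/
theorem cubic (h : DetOne u O) {z : V 3} (hz : z ∈ O) :
    C3 u z ^ 2 ≤ 2 / 5 * RR u z * QQ u z ^ 3 := by
  obtain ⟨T, x, hT, hx, hxO, hG⟩ := exists_frame h hz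
  have h' := cubic_pt (detOne_lin h hT) hxO hG
  rw [RR_lin h hT hxO, QQ_lin h hT hxO, C3_lin h hT hxO, hx] at h'
  exact h'

theorem RR_nonneg (h : DetOne u O) {z : V 3} (hz : z ∈ O) : 0 ≤ RR u z := by
  obtain ⟨T, x, hT, hx, hxO, hG⟩ := exists_frame h hz
  rw [← hx, ← RR_lin h hT hxO, RR_pt (detOne_lin h hT) hxO hG]
  refine Finset.sum_nonneg fun i _ => Finset.sum_nonneg fun j _ => Finset.sum_nonneg fun k _ => ?_
  rw [congrFun (T3_comm23 (detOne_lin h hT).sm i j k) x]
  exact mul_self_nonneg _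

theorem QQ_nonneg (h : DetOne u O) {z : V 3} (hz : z ∈ O) : 0 ≤ QQ u z := by
  obtain ⟨T, x, hT, hx, hxO, hG⟩ := exists_frame h hz
  rw [← hx, ← QQ_lin h hT hxO]
  simp only [QQ, WW, hG, ite_mul, one_mul, zero_mul, Finset.sum_ite_eq, Finset.mem_univ, if_true]
  exact Finset.sum_nonneg fun j _ => mul_self_nonneg _

theorem T3_zero_of_RR (h : DetOne u O) {z : V 3} (hz : z ∈ O) (h0 : RR u z = 0) (a b c : Fin 3) :
    T3 u a b c z = 0 := by
  obtain ⟨T, x, hT, hx, hxO, hG⟩ := exists_frame h hz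
  have hT0 : T.det ≠ 0 := fun h0 => by simp [h0] at hT
  have e := RR_pt (detOne_lin h hT) hxO hG
  rw [RR_lin h hT hxO, hx, h0] at e
  have hv : ∀ i j k, T3 (fun y => u (lin T y)) i j k x = 0 := by
    have h1 : ∑ i, ∑ j, ∑ k, T3 (fun y => u (lin T y)) i j k x ^ 2 = 0 := by
      refine Eq.trans ?_ e.symm
      refine Finset.sum_congr rfl fun i _ => Finset.sum_congr rfl fun j _ =>
        Finset.sum_congr rfl fun k _ => ?_
      rw [congrFun (T3_comm23 (detOne_lin h hT).sm i k j) x]; ring
    intro i j k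
    have h2 := (Finset.sum_eq_zero_iff_of_nonneg fun i _ => Finset.sum_nonneg fun j _ =>
      Finset.sum_nonneg fun k _ => sq_nonneg _).1 h1 i (Finset.mem_univ _)
    have h3 := (Finset.sum_eq_zero_iff_of_nonneg fun j _ =>
      Finset.sum_nonneg fun k _ => sq_nonneg _).1 h2 j (Finset.mem_univ _)
    exact pow_eq_zero_iff two_ne_zero |>.1
      ((Finset.sum_eq_zero_iff_of_nonneg fun k _ => sq_nonneg _).1 h3 k (Finset.mem_univ _))
  have hback : u = fun y => (fun y => u (lin T y)) (lin T⁻¹ y) := by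
    funext y
    show u y = u (lin T (lin T⁻¹ y))
    rw [← ContinuousLinearMap.mul_apply, lin, lin, ← map_mul,
      Matrix.mul_nonsing_inv _ (Ne.isUnit hT0), map_one, ContinuousLinearMap.one_apply]
  rw [hback, T3_lin (detOne_lin h hT).sm]
  have : lin T⁻¹ z = x := by
    rw [← hx, ← ContinuousLinearMap.mul_apply, lin, lin, ← map_mul,
      Matrix.nonsing_inv_mul _ (Ne.isUnit hT0), map_one, ContinuousLinearMap.one_apply]
  simp [this, hv]

end Vale.Agent.P252C
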