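import Vale.Agent.P252C.Section

/-!
A convex solution of `det D²u = const` in three variables with closed graph over an open convex
set is a quadratic polynomial on the whole space.
-/

open Set Matrix Finset MeasureTheory Metric

namespace Vale.Agent.P252C

open Vale.Agent.P252 (hessian)
open Vale.Agent.P252B (V pd Admissible)
open Vale.Agent.P100.Linear (pp pp_nonneg continuous_pp integrable_supp)

variable {O : Set (V 3)} {U : V 3 → ℝ}

theorem ext_nonneg (N : Norm1 O U) {h : ℝ} (hh : 0 ≤ h) (x : V 3) : 0 ≤ ext O U h x := by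
  by_cases hx : x ∈ O
  · simp only [ext, indicator_of_mem hx]
    have h1 := mul_nonneg (Real.smoothTransition.nonneg (h + 1 - U x)) (N.nonneg hx)
    have h2 := mul_le_of_le_one_left (show (0 : ℝ) ≤ h + 1 by linarith)
      (Real.smoothTransition.le_one (h + 1 - U x))
    rw [mul_sub]
    linarith
  · simp [ext, hx]
    linarith

theorem RR_congr_on {n : ℕ} {S : Set (V n)} (hS : IsOpen S) {f g : V n → ℝ} (hf : Sm f) (hg : Sm g)
    (hfg : ∀ y ∈ S, f y = g y) {x : V n} (hx : x ∈ S) : RR f x = RR g x := by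
  have eG : ∀ i j, G f i j x = G g i j x := fun i j => by
    have : hessian f x = hessian g x := by
      ext a b
      rw [hessian_T2 hf, hessian_T2 hg]
      exact pd2_congr_on hS hfg hx a b
    simp only [G, this]
  have eT : ∀ i j k, T3 f i j k x = T3 g i j k x := fun i j k =>
    pd_congr_on hS (fun y hy => pd2_congr_on hS hfg hy j k) hx i
  simp only [RR, PP, MM, eG, eT]

theorem Norm1.RR_zero (N : Norm1 O U) {x₀ : V 3} (hx₀ : x₀ ∈ O) :
    RR (ext O U (U x₀ + 1)) x₀ = 0 := by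
  by_contra hne
  set h₀ := U x₀ + 1 with hh₀
  set u₀ := ext O U h₀ with hu₀
  have hpos : 0 < RR u₀ x₀ ^ 2 := pow_two_pos_of_ne_zero hne
  set ε := RR u₀ x₀ ^ 2 / 2 with hε
  obtain ⟨r, hr, hball⟩ := Metric.nhds_basis_closedBall.mem_iff.1 (Filter.inter_mem
    ((N.low_open h₀).mem_nhds (x := x₀) ⟨hx₀, by linarith⟩)
    ((((cont _ (sm_RR (ext_smooth N h₀))).pow 2).continuousAt (x := x₀)).preimage_mem_nhds
      (Ioi_mem_nhds (show ε < RR u₀ x₀ ^ 2 by linarith))))
  set b := volume.real (closedBall x₀ r) with hb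
  have hb0 : 0 < b := ENNReal.toReal_pos (measure_closedBall_pos volume x₀ hr).ne'
    (isCompact_closedBall x₀ r).measure_lt_top.ne
  obtain ⟨C, hC⟩ := N.sec_volume
  have hh0 : 0 < h₀ := by have := N.nonneg hx₀; linarith
  have key : ∀ H, 2 * h₀ ≤ H →
      ε * b * (H / 2) ^ 16 ≤ 10 ^ 8 * (H ^ 14 * volume.real (sec O U H)) := by
    intro H hH
    set u := ext O U (H + 1) with hu
    have hD : DetOne u (low O U (H + 1)) := N.detOne _
    set K := sec O U H with hK
    have hKc : IsCompact K := N.sec_compact H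
    have hKS : ∀ x, u x < H → x ∈ K := fun x hx => ext_below (by linarith) hx
    have hz : ∀ m x, x ∉ K → pp (m + 1) (H - u x) = 0 := fun m x hx =>
      P100.Linear.pp_eq_zero (by omega) (sub_nonpos.2 (le_of_not_gt fun h' => hx (hKS x h')))
    have hu_c : Continuous fun x => H - u x := continuous_const.sub (cont _ hD.sm)
    have hiL : Integrable fun x => pp 16 (H - u x) * RR u x ^ 2 :=
      integrable_supp hKc (fun x _ => (((continuous_pp _).comp hu_c).mul
        ((cont _ (sm_RR hD.sm)).pow 2)).continuousAt) fun x hx => by simp [hz 15 x hx]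
    have low1 : ε * (H / 2) ^ 16 * b ≤ ∫ x, pp 16 (H - u x) * RR u x ^ 2 := by
      refine le_trans (setIntegral_ge_of_const_le_real measurableSet_closedBall
        (isCompact_closedBall x₀ r).measure_lt_top.ne (fun x hx => ?_) hiL.integrableOn)
        (setIntegral_le_integral hiL (Filter.Eventually.of_forall fun x =>
          mul_nonneg (pp_nonneg _ _) (sq_nonneg _)))
      obtain ⟨hxl, hxε⟩ := hball hx
      have e0 : ∀ y ∈ low O U h₀, u y = u₀ y := fun y hy => by
        rw [hu, hu₀, ext_eq hy.1 (by linarith [hy.2]), ext_eq hy.1 hy.2.le]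
      have h1 : H / 2 ≤ H - u x := by
        rw [hu, ext_eq hxl.1 (by linarith [hxl.2])]
        linarith [hxl.2]
      rw [RR_congr_on (N.low_open h₀) hD.sm (ext_smooth N h₀) e0 hxl, mul_comm ε]
      refine mul_le_mul ?_ (le_of_lt hxε) (le_of_lt (half_pos hpos)) (pp_nonneg _ _)
      show (H / 2) ^ 16 ≤ max (H - u x) 0 ^ 16
      exact pow_le_pow_left₀ (by linarith) (h1.trans (le_max_left _ _)) 16
    have up1 : ∫ x, pp 14 (H - u x) ≤ H ^ 14 * volume.real K := by
      rw [← setIntegral_eq_integral_of_forall_compl_eq_zero (s := K) fun x hx => hz 13 x hx]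
      refine (le_abs_self _).trans ?_
      rw [← Real.norm_eq_abs]
      refine norm_setIntegral_le_of_norm_le_const hKc.measure_lt_top fun x _ => ?_
      rw [Real.norm_eq_abs, abs_of_nonneg (pp_nonneg _ _)]
      show max (H - u x) 0 ^ 14 ≤ H ^ 14
      exact pow_le_pow_left₀ (le_max_right _ _)
        (max_le (by linarith [ext_nonneg N (show (0 : ℝ) ≤ H + 1 by linarith) x]) (by linarith)) 14
    have h8 : (0 : ℝ) ≤ 10 ^ 8 := by norm_num
    calc ε * b * (H / 2) ^ 16 = ε * (H / 2) ^ 16 * b := by ring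
      _ ≤ _ := low1
      _ ≤ 10 ^ 8 * ∫ x, pp 14 (H - u x) :=
        energy hD hKc (fun x hx => ⟨hx.1, hx.2.trans_lt (by linarith)⟩) hKS
      _ ≤ _ := mul_le_mul_of_nonneg_left up1 h8
  set a := (ε * b) ^ 2 / 2 ^ 32 with ha
  have ha0 : 0 < a := by positivity
  set H := max (2 * h₀) (max 1 (10 ^ 16 * C / a + 1)) with hHdef
  have hH1 : 1 ≤ H := (le_max_left _ _).trans (le_max_right _ _)
  have hH2 : 10 ^ 16 * C / a + 1 ≤ H := (le_max_right _ _).trans (le_max_right _ _)
  have hHp : 0 < H := by linarith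
  have h1 := pow_le_pow_left₀ (by positivity) (key H (le_max_left _ _)) 2
  have h2 : (10 ^ 8 * (H ^ 14 * volume.real (sec O U H))) ^ 2 ≤ 10 ^ 16 * C * H ^ 31 := by
    calc (10 ^ 8 * (H ^ 14 * volume.real (sec O U H))) ^ 2
        = 10 ^ 16 * H ^ 28 * volume.real (sec O U H) ^ 2 := by ring
      _ ≤ 10 ^ 16 * H ^ 28 * (C * H ^ 3) :=
        mul_le_mul_of_nonneg_left (hC H hHp) (by positivity)
      _ = _ := by ring
  have h3 : a * H * H ^ 31 ≤ 10 ^ 16 * C * H ^ 31 := by
    refine le_trans (le_of_eq ?_) (h1.trans h2)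
    simp only [ha]
    ring
  have h4 : a * H ≤ 10 ^ 16 * C := le_of_mul_le_mul_right h3 (by positivity)
  have h5 : H ≤ 10 ^ 16 * C / a := (le_div_iff₀ ha0).2 (by linarith)
  linarith

theorem Norm1.hessian_const (N : Norm1 O U) {x : V 3} (hx : x ∈ O) :
    hessian U x = hessian U 0 := by
  ext i j
  refine (IsOpen.is_const_of_fderiv_eq_zero (f := fun y => hessian U y i j) N.adm.1
    N.adm.2.1.isPreconnected
    ((P252B.contDiffOn_hessian N.adm.1 N.adm.2.2.1 i j).differentiableOn (by norm_num))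
    (fun y hy => ?_) hx N.zero_mem)
  set h := U y + 1 with hh
  have hyl : y ∈ low O U h := ⟨hy, by linarith⟩
  have e : (fun z => hessian U z i j) =ᶠ[nhds y] T2 (ext O U h) i j :=
    Filter.eventuallyEq_of_mem ((N.low_open h).mem_nhds hyl) fun z hz => by
      rw [← hessian_T2 (ext_smooth N h), hessian_ext N hz]
  rw [e.fderiv_eq]
  refine ContinuousLinearMap.ext fun v => ?_
  rw [P252B.fderiv_apply_sum]
  simp [show ∀ a, pd (T2 (ext O U h) i j) a y = 0 from fun a =>
    T3_zero_of_RR (N.detOne h) hyl (N.RR_zero hy) a i j]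

theorem Norm1.quadratic (N : Norm1 O U) {x : V 3} (hx : x ∈ O) :
    U x = (∑ i, ∑ j, hessian U 0 i j * x i * x j) / 2 := by
  set A := hessian U 0 with hA
  have hpd : ∀ j, ∀ y ∈ O, pd U j y = ∑ i, A i j * y i := by
    intro j y hy
    set L : V 3 →L[ℝ] ℝ := ∑ i, A i j • PiLp.proj 2 (fun _ : Fin 3 => ℝ) i with hL
    have hLy : ∀ z, L z = ∑ i, A i j * z i := fun z => by simp [hL]
    have hd := P252B.contDiffOn_pd N.adm.1 N.adm.2.2.1 j
    have hc := IsOpen.is_const_of_fderiv_eq_zero (f := fun z => pd U j z - L z) N.adm.1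
      N.adm.2.1.isPreconnected ((hd.differentiableOn (by norm_num)).sub L.differentiable.differentiableOn)
      (fun z hz => by
        rw [fderiv_fun_sub (P252B.diffAt_of_mem N.adm.1 hd hz) L.differentiableAt, L.fderiv]
        refine ContinuousLinearMap.ext fun v => ?_
        rw [_root_.sub_apply, P252B.fderiv_apply_sum, hLy]
        simp [← P252B.hessian_eq N.adm.1 N.adm.2.2.1 hz, N.hessian_const hz, hA, mul_comm])
      hy N.zero_mem
    have h0 : pd U j 0 = 0 := by simp [P252B.pd, N.grad0]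
    simp only [h0, map_zero, sub_zero] at hc
    rw [← hLy]
    linarith
  set q := ∑ i, ∑ j, A i j * x i * x j with hq
  have hmem : ∀ t ∈ Icc (0 : ℝ) 1, t • x ∈ O := fun t ht =>
    N.adm.2.1.smul_mem_of_zero_mem N.zero_mem hx ht
  have hder : ∀ t ∈ Icc (0 : ℝ) 1,
      HasDerivAt (fun t : ℝ => U (t • x) - t ^ 2 / 2 * q) 0 t := by
    intro t ht
    have h1 : HasDerivAt (fun t : ℝ => U (t • x)) (fderiv ℝ U (t • x) x) t := by
      refine (P252B.diffAt_of_mem N.adm.1 N.adm.2.2.1 (hmem t ht)).hasFDerivAt.comp_hasDerivAt t ?_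
      simpa using (hasDerivAt_id t).smul_const x
    have h2 : HasDerivAt (fun t : ℝ => t ^ 2 / 2 * q) (t * q) t := by
      simpa using ((hasDerivAt_pow 2 t).div_const 2).mul_const q
    refine (h1.sub h2).congr_deriv ?_
    rw [P252B.fderiv_apply_sum, sub_eq_zero]
    simp only [hpd _ _ (hmem t ht), hq, PiLp.smul_apply, smul_eq_mul, Finset.mul_sum]
    rw [Finset.sum_comm]
    exact Finset.sum_congr rfl fun i _ => Finset.sum_congr rfl fun j _ => by ring
  have := constant_of_has_deriv_right_zero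
    (fun t ht => (hder t ht).continuousAt.continuousWithinAt)
    (fun t ht => (hder t (Ico_subset_Icc_self ht)).hasDerivWithinAt) 1 (right_mem_Icc.2 zero_le_one)
  simp [N.at0] at this
  linarith

theorem Norm1.eq_univ (N : Norm1 O U) : O = univ := by
  refine IsClopen.eq_univ ⟨?_, N.adm.1⟩ ⟨0, N.zero_mem⟩
  refine isClosed_of_closure_subset fun x hx => ?_
  obtain ⟨s, hs, hlim⟩ := mem_closure_iff_seq_limit.1 hx
  set q : V 3 → ℝ := fun y => (∑ i, ∑ j, hessian U 0 i j * y i * y j) / 2 with hq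
  have hqc : Continuous q := by fun_prop
  exact (N.graph.mem_of_tendsto (hlim.prodMk_nhds ((hqc.tendsto x).comp hlim))
    (Filter.Eventually.of_forall fun k => ⟨hs k, (N.quadratic (hs k)).symm⟩)).1

variable {Ω : Set (V 3)} {u : V 3 → ℝ} {D : ℝ}

/-- Normalisation at a point. -/
theorem exists_norm1 (hu : Admissible Ω u) (hg : IsClosed {p : V 3 × ℝ | p.1 ∈ Ω ∧ p.2 = u p.1})
    (hdet : ∀ x ∈ Ω, (hessian u x).det = D) {x₀ : V 3} (hx₀ : x₀ ∈ Ω) :
    ∃ c : ℝ, 0 < c ∧ Norm1 {y | y + x₀ ∈ Ω}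
        (fun y => c * (u (y + x₀) - u x₀ - fderiv ℝ u x₀ y)) ∧
      ∀ y, y + x₀ ∈ Ω → hessian (fun y => c * (u (y + x₀) - u x₀ - fderiv ℝ u x₀ y)) y =
        c • hessian u (y + x₀) := by
  obtain ⟨hΩ, hcv, hs, hpos⟩ := id hu
  have hD : 0 < D := hdet x₀ hx₀ ▸ (hpos x₀ hx₀).det_pos
  set c := (D⁻¹) ^ ((1 : ℝ) / 3) with hc
  have hc0 : 0 < c := Real.rpow_pos_of_pos (inv_pos.2 hD) _
  have hc3 : c ^ 3 * D = 1 := by
    rw [hc, ← Real.rpow_natCast, ← Real.rpow_mul (inv_pos.2 hD).le,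
      show (1 : ℝ) / 3 * ((3 : ℕ) : ℝ) = 1 by norm_num, Real.rpow_one, inv_mul_cancel₀ hD.ne']
  set L := fderiv ℝ u x₀ with hL
  set O' : Set (V 3) := {y | y + x₀ ∈ Ω} with hO'
  set W : V 3 → ℝ := fun y => c * (u (y + x₀) - u x₀ - L y) with hW
  have hO'o : IsOpen O' := hΩ.preimage (continuous_id.add continuous_const)
  have hsm : ContDiffOn ℝ (↑(⊤ : ℕ∞)) W O' :=
    contDiffOn_const.mul (((hs.comp (contDiff_id.add contDiff_const).contDiffOn fun y hy => hy).sub
      contDiffOn_const).sub L.contDiff.contDiffOn)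
  have hfd : ∀ y ∈ O', fderiv ℝ W y = c • (fderiv ℝ u (y + x₀) - L) := fun y hy => by
    have h1 : HasFDerivAt (fun y => u (y + x₀)) (fderiv ℝ u (y + x₀)) y :=
      (hasFDerivAt_comp_add_right x₀).2 (P252B.diffAt_of_mem hΩ hs hy).hasFDerivAt
    exact (((h1.sub_const (u x₀)).sub L.hasFDerivAt).const_mul c).fderiv
  have hh : ∀ y ∈ O', hessian W y = c • hessian u (y + x₀) := by
    intro y hy
    have hdd : DifferentiableAt ℝ (fderiv ℝ u) (y + x₀) :=
      ((((hs.fderiv_of_isOpen (m := (↑(⊤ : ℕ∞))) hΩ le_rfl).differentiableOn (by norm_num))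
        _ hy).differentiableAt (hΩ.mem_nhds hy))
    have h2 : fderiv ℝ (fderiv ℝ W) y = c • fderiv ℝ (fderiv ℝ u) (y + x₀) := by
      rw [(Filter.eventuallyEq_of_mem (hO'o.mem_nhds hy) hfd).fderiv_eq]
      exact ((((hasFDerivAt_comp_add_right x₀).2 hdd.hasFDerivAt).sub_const L).const_smul c).fderiv
    ext i j
    simp [hessian, h2]
  have h0 : (0 : V 3) ∈ O' := by simpa [hO'] using hx₀
  refine ⟨c, hc0, ⟨⟨hO'o, ?_, hsm, fun y hy => ?_⟩, h0, ?_, ?_, fun y hy => ?_, ?_⟩, hh⟩
  · exact hcv.translate_preimage_left x₀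
  · rw [hh y hy]; exact (hpos _ hy).smul hc0
  · simp [hW]
  · rw [hfd 0 h0]; simp [hL]
  · rw [hh y hy, Matrix.det_smul, hdet _ hy, Fintype.card_fin]; exact hc3
  · have hk : Continuous fun p : V 3 × ℝ => (p.1 + x₀, p.2 / c + u x₀ + L p.1) := by fun_prop
    convert hg.preimage hk using 1
    ext p
    simp only [Set.mem_preimage, hO', Set.mem_ofPred_eq]
    refine and_congr_right fun _ => ⟨fun h => ?_, fun h => ?_⟩
    · rw [h, mul_div_cancel_left₀ _ hc0.ne']; ring
    · rw [← h]; field_simp; ring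

/-- A solution of `det D²u = const` with closed graph is defined everywhere and equals its
second order Taylor polynomial at any point. -/
theorem det_const_taylor (hu : Admissible Ω u)
    (hg : IsClosed {p : V 3 × ℝ | p.1 ∈ Ω ∧ p.2 = u p.1})
    (hdet : ∀ x ∈ Ω, (hessian u x).det = D) {x₀ : V 3} (hx₀ : x₀ ∈ Ω) :
    Ω = univ ∧ ∀ x, u x = u x₀ + fderiv ℝ u x₀ (x - x₀) +
      (∑ i, ∑ j, hessian u x₀ i j * (x i - x₀ i) * (x j - x₀ j)) / 2 := by
  obtain ⟨c, hc0, N, hh⟩ := exists_norm1 hu hg hdet hx₀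
  have hU := N.eq_univ
  have huniv : Ω = univ := Set.eq_univ_iff_forall.2 fun x => by
    have : x - x₀ ∈ {y : V 3 | y + x₀ ∈ Ω} := hU ▸ Set.mem_univ _
    simpa using this
  refine ⟨huniv, fun x => ?_⟩
  have h := N.quadratic (x := x - x₀) (hU ▸ Set.mem_univ _)
  rw [hh 0 (by simpa using hx₀)] at h
  simp only [sub_add_cancel, zero_add, Matrix.smul_apply, smul_eq_mul, PiLp.sub_apply, mul_assoc,
    ← Finset.mul_sum, mul_div_assoc] at h
  have := mul_left_cancel₀ hc0.ne' h
  simp only [mul_assoc]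
  linarith

/-- A solution of `det D²u = const` in three variables with closed graph over a nonempty open
convex set is a quadratic polynomial on the whole space. -/
theorem det_const_quadratic (hu : Admissible Ω u) (hne : Ω.Nonempty)
    (hg : IsClosed {p : V 3 × ℝ | p.1 ∈ Ω ∧ p.2 = u p.1})
    (hdet : ∀ x ∈ Ω, (hessian u x).det = D) :
    Ω = univ ∧ ∃ (A : Matrix (Fin 3) (Fin 3) ℝ) (b : Fin 3 → ℝ) (c : ℝ), ∀ x : V 3,
      u x = (∑ i, ∑ j, A i j * x i * x j) / 2 + (∑ i, b i * x i) + c := by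
  obtain ⟨x₀, hx₀⟩ := hne
  obtain ⟨hΩ, hT⟩ := det_const_taylor hu hg hdet hx₀
  refine ⟨hΩ, hessian u x₀, fun i => pd u i x₀ -
      (∑ j, (hessian u x₀ i j + hessian u x₀ j i) * x₀ j) / 2,
    u x₀ - fderiv ℝ u x₀ x₀ + (∑ i, ∑ j, hessian u x₀ i j * x₀ i * x₀ j) / 2, fun x => ?_⟩
  rw [hT x, map_sub, P252B.fderiv_apply_sum u x₀ x]
  simp only [Fin.sum_univ_three]
  ring

end Vale.Agent.P252C
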