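import Vale.Agent.P252C.Calc
import Vale.Agent.P252C.Alg

/-!
The squared cubic form, the squared gradient and their derivatives at a point where the Hessian is
the identity.
-/

open Set Matrix Finset

namespace Vale.Agent.P252C

open Vale.Agent.P252 (hessian)
open Vale.Agent.P252B (V pd)

variable {n : ℕ} {u : V n → ℝ} {O : Set (V n)}

/-- The cubic form with one index raised. -/
noncomputable def MM (u : V n → ℝ) (i j k : Fin n) : V n → ℝ :=
  fun x => ∑ b, G u j b x * T3 u i b k x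

/-- Four times the Ricci form. -/
noncomputable def PP (u : V n → ℝ) (i a : Fin n) : V n → ℝ :=
  fun x => ∑ j, ∑ k, MM u i j k x * MM u a k j x

/-- The squared norm of the cubic form. -/
noncomputable def RR (u : V n → ℝ) : V n → ℝ := fun x => ∑ i, ∑ a, G u i a x * PP u i a x

/-- The gradient with its index raised. -/
noncomputable def WW (u : V n → ℝ) (j : Fin n) : V n → ℝ := fun x => ∑ a, G u j a x * pd u a x

/-- The squared norm of the gradient. -/
noncomputable def QQ (u : V n → ℝ) : V n → ℝ := fun x => ∑ j, pd u j x * WW u j x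

/-- The cubic form on the gradient. -/
noncomputable def C3 (u : V n → ℝ) : V n → ℝ :=
  fun x => ∑ i, ∑ j, ∑ k, T3 u i j k x * (WW u i x * WW u j x * WW u k x)

/-- The metric Laplacian. -/
noncomputable def lap (u f : V n → ℝ) : V n → ℝ :=
  fun x => ∑ i, ∑ j, G u i j x * pd (pd f j) i x

/-- The metric product of two gradients. -/
noncomputable def ip (u f g : V n → ℝ) : V n → ℝ :=
  fun x => ∑ i, ∑ j, G u i j x * pd f i x * pd g j x

theorem sm_MM (h : Sm u) (i j k : Fin n) : Sm (MM u i j k) :=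
  sm_sum fun b _ => (sm_G h j b).mul (sm_T3 h i b k)

theorem sm_PP (h : Sm u) (i a : Fin n) : Sm (PP u i a) :=
  sm_sum fun j _ => sm_sum fun k _ => (sm_MM h i j k).mul (sm_MM h a k j)

theorem sm_RR (h : Sm u) : Sm (RR u) :=
  sm_sum fun i _ => sm_sum fun a _ => (sm_G h i a).mul (sm_PP h i a)

theorem sm_WW (h : Sm u) (j : Fin n) : Sm (WW u j) :=
  sm_sum fun a _ => (sm_G h j a).mul (h.pd a)

theorem sm_QQ (h : Sm u) : Sm (QQ u) :=
  sm_sum fun j _ => (h.pd j).mul (sm_WW h j)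

theorem pd_congr {f g : V n → ℝ} (h : ∀ x, f x = g x) (i : Fin n) : pd f i = pd g i := by
  rw [funext h]

theorem pd_mul_fun {f g : V n → ℝ} (hf : Sm f) (hg : Sm g) (i : Fin n) :
    pd (fun y => f y * g y) i = fun x => pd f i x * g x + f x * pd g i x :=
  funext (pd_mul hf hg i)

theorem pd2_mul {f g : V n → ℝ} (hf : Sm f) (hg : Sm g) (i j : Fin n) (x : V n) :
    pd (pd (fun y => f y * g y) j) i x = pd (pd f j) i x * g x + pd f j x * pd g i x +
      (pd f i x * pd g j x + f x * pd (pd g j) i x) := by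
  rw [pd_mul_fun hf hg, pd_add ((hf.pd j).mul hg) (hf.mul (hg.pd j)), pd_mul (hf.pd j) hg,
    pd_mul hf (hg.pd j)]

theorem pd2_sum {ι : Type} {s : Finset ι} {f : ι → V n → ℝ} (h : ∀ k ∈ s, Sm (f k)) (i j : Fin n)
    (x : V n) : pd (pd (fun y => ∑ k ∈ s, f k y) j) i x = ∑ k ∈ s, pd (pd (f k) j) i x := by
  rw [funext (pd_sum h j)]
  exact pd_sum (fun k hk => (h k hk).pd j) i x

theorem T4_comm01 (h : Sm u) (l i j k : Fin n) : pd (T3 u i j k) l = pd (T3 u l j k) i := by
  unfold T3; exact pd_comm (sm_T2 h j k) i l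

theorem T4_comm12 (h : Sm u) (l i j k : Fin n) : pd (T3 u i j k) l = pd (T3 u j i k) l := by
  rw [T3_comm12 h]

theorem T4_comm23 (h : Sm u) (l i j k : Fin n) : pd (T3 u i j k) l = pd (T3 u i k j) l := by
  rw [T3_comm23 h]

theorem T5_swap (h : Sm u) (l i j k : Fin n) :
    pd (pd (T3 u i j k) l) l = pd (pd (T3 u l l k) j) i := by
  rw [T4_comm01 h l i j k, T4_comm12 h i l j k, pd_comm (sm_T3 h j l k) i l, T4_comm01 h l j l k]

section Point

variable {z : V n} (h : DetOne u O) (hzO : z ∈ O) (hz : ∀ i j, G u i j z = if i = j then 1 else 0)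
include h hzO hz

theorem pdG_pt (l i j : Fin n) : pd (G u i j) l z = -T3 u l i j z := by
  simp [pd_G h hzO l i j, hz]

theorem pd2G_pt (i j p q : Fin n) : pd (pd (G u p q) j) i z =
    ∑ b, (T3 u i p b z * T3 u j b q z + T3 u j p b z * T3 u i b q z) - pd (T3 u j p q) i z := by
  have hin : ∀ a, Sm fun x => ∑ b, G u p b x * T3 u j b a x := fun a =>
    sm_sum fun b _ => (sm_G h.sm p b).mul (sm_T3 h.sm j b a)
  rw [pd_congr_on h.op (fun y hy => pd_G h hy j p q) hzO, pd_neg, pd_sum (fun a _ => (hin a).mul (sm_G h.sm a q))]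
  have e : ∀ a, pd (fun x => (∑ b, G u p b x * T3 u j b a x) * G u a q x) i z =
      (∑ b, (-T3 u i p b z * T3 u j b a z) + pd (T3 u j p a) i z) * (if a = q then 1 else 0) -
        T3 u j p a z * T3 u i a q z := by
    intro a
    rw [pd_mul (hin a) (sm_G h.sm a q), pd_sum (fun b _ => (sm_G h.sm p b).mul (sm_T3 h.sm j b a))]
    simp only [pd_mul (sm_G h.sm p _) (sm_T3 h.sm j _ a), pdG_pt h hzO hz, hz, ite_mul, one_mul, zero_mul,
      Finset.sum_add_distrib, Finset.sum_ite_eq, Finset.mem_univ, if_true]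
    ring
  simp only [e, Finset.sum_sub_distrib, mul_ite, mul_one, mul_zero, Finset.sum_ite_eq',
    Finset.mem_univ, if_true, neg_mul, Finset.sum_neg_distrib, Finset.sum_add_distrib]
  ring

theorem MM_pt (i j k : Fin n) : MM u i j k z = T3 u i j k z := by simp [MM, hz]

theorem PP_pt (i a : Fin n) : PP u i a z = ∑ j, ∑ k, T3 u i j k z * T3 u a k j z := by
  simp [PP, MM_pt h hzO hz]

theorem RR_pt : RR u z = ∑ i, ∑ j, ∑ k, T3 u i j k z * T3 u i k j z := by
  simp [RR, PP_pt h hzO hz, hz]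

theorem pdMM_pt (l i j k : Fin n) : pd (MM u i j k) l z =
    pd (T3 u i j k) l z - ∑ b, T3 u l j b z * T3 u i b k z := by
  unfold MM
  rw [pd_sum (fun b _ => (sm_G h.sm j b).mul (sm_T3 h.sm i b k))]
  simp [pd_mul (sm_G h.sm j _) (sm_T3 h.sm i _ k), pdG_pt h hzO hz, hz, Finset.sum_add_distrib]
  ring

theorem pdPP_pt (l i a : Fin n) : pd (PP u i a) l z =
    ∑ j, ∑ k, (pd (MM u i j k) l z * T3 u a k j z + T3 u i j k z * pd (MM u a k j) l z) := by
  unfold PP
  rw [pd_sum (fun j _ => sm_sum fun k _ => (sm_MM h.sm i j k).mul (sm_MM h.sm a k j))]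
  refine Finset.sum_congr rfl fun j _ => ?_
  rw [pd_sum (fun k _ => (sm_MM h.sm i j k).mul (sm_MM h.sm a k j))]
  simp [pd_mul (sm_MM h.sm i j _) (sm_MM h.sm a _ j), MM_pt h hzO hz]

theorem traceA_pt (k : Fin n) : ∑ p, T3 u p p k z = 0 := by
  simpa [hz] using trace_T3 h hzO k

theorem traceB_pt (j k : Fin n) :
    ∑ p, pd (T3 u p j k) p z = ∑ a, ∑ b, T3 u j a b z * T3 u k b a z := by
  have h0 : pd (fun x => ∑ p, ∑ q, G u p q x * T3 u p q k x) j z = 0 := by
    rw [pd_congr_on h.op (g := fun _ => (0 : ℝ)) (fun y hy => trace_T3 h hy k) hzO]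
    exact pd_const _ _ _
  rw [pd_sum (fun p _ => sm_sum fun q _ => (sm_G h.sm p q).mul (sm_T3 h.sm p q k))] at h0
  simp only [pd_sum (fun q _ => (sm_G h.sm _ q).mul (sm_T3 h.sm _ q k))] at h0
  simp [pd_mul (sm_G h.sm _ _) (sm_T3 h.sm _ _ k), pdG_pt h hzO hz, hz, Finset.sum_add_distrib] at h0
  have e : ∀ p, pd (T3 u p j k) p z = pd (T3 u p p k) j z := fun p => by
    rw [T4_comm12 h.sm p p j k, T4_comm01 h.sm p j p k]
  simp only [e]
  have e' : ∑ a, ∑ b, T3 u j a b z * T3 u k b a z = ∑ a, ∑ b, T3 u j a b z * T3 u a b k z :=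
    Finset.sum_congr rfl fun a _ => Finset.sum_congr rfl fun b _ => by
      rw [T3_comm23 h.sm k b a, T3_comm12 h.sm k a b, T3_comm23 h.sm a k b]
  linarith

theorem fifth_pt (i j k : Fin n) : ∑ l, pd (pd (T3 u i j k) l) l z =
    -(∑ p, ∑ q, ((∑ b, (T3 u i p b z * T3 u j b q z + T3 u j p b z * T3 u i b q z)) -
        pd (T3 u j p q) i z) * T3 u p q k z) +
      ∑ p, ∑ q, T3 u i p q z * pd (T3 u p q k) j z +
      ∑ p, ∑ q, T3 u j p q z * pd (T3 u p q k) i z := by
  have h0 : pd (pd (fun x => ∑ p, ∑ q, G u p q x * T3 u p q k x) j) i z = 0 := by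
    rw [pd2_congr_on h.op (g := fun _ => (0 : ℝ)) (fun y hy => trace_T3 h hy k) hzO,
      show pd (fun _ : V n => (0 : ℝ)) j = fun _ => (0 : ℝ) from funext fun x => pd_const _ _ _]
    exact pd_const _ _ _
  rw [pd2_sum (fun p _ => sm_sum fun q _ => (sm_G h.sm p q).mul (sm_T3 h.sm p q k))] at h0
  simp only [pd2_sum (fun q _ => (sm_G h.sm _ q).mul (sm_T3 h.sm _ q k)),
    pd2_mul (sm_G h.sm _ _) (sm_T3 h.sm _ _ k), pdG_pt h hzO hz, pd2G_pt h hzO hz, hz] at h0
  simp [Finset.sum_add_distrib] at h0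
  rw [Finset.sum_congr rfl fun l _ => congrFun (T5_swap h.sm l i j k) z]
  simp only [Finset.sum_add_distrib]
  linarith

theorem pdRR_pt (l : Fin n) : pd (RR u) l z =
    -(∑ i, ∑ a, T3 u l i a z * PP u i a z) +
      ∑ i, ∑ j, ∑ k, 2 * (pd (MM u i j k) l z * T3 u i k j z) := by
  unfold RR
  rw [pd_sum (fun i _ => sm_sum fun a _ => (sm_G h.sm i a).mul (sm_PP h.sm i a))]
  simp only [pd_sum (fun a _ => (sm_G h.sm _ a).mul (sm_PP h.sm _ a)),
    pd_mul (sm_G h.sm _ _) (sm_PP h.sm _ _), pdG_pt h hzO hz, hz, neg_mul, ite_mul, one_mul, zero_mul,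
    Finset.sum_add_distrib, Finset.sum_ite_eq, Finset.mem_univ, if_true, Finset.sum_neg_distrib]
  simp only [pdPP_pt h hzO hz, two_mul, Finset.sum_add_distrib]
  congr 1
  congr 1
  refine Finset.sum_congr rfl fun i _ => ?_
  rw [Finset.sum_comm]
  exact Finset.sum_congr rfl fun j _ => Finset.sum_congr rfl fun k _ => mul_comm _ _

theorem pd2G_sum (i j : Fin n) : ∑ l, pd (pd (G u i j) l) l z = PP u i j z := by
  simp only [pd2G_pt h hzO hz, Finset.sum_sub_distrib, PP_pt h hzO hz]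
  have e2 : ∀ l, pd (T3 u l i j) l z = pd (T3 u l i j) l z := fun l => rfl
  rw [traceB_pt h hzO hz i j]
  have e : ∑ l, ∑ b, (T3 u l i b z * T3 u l b j z + T3 u l i b z * T3 u l b j z) =
      2 * ∑ a, ∑ b, T3 u i a b z * T3 u j b a z := by
    simp only [Finset.mul_sum]
    refine Finset.sum_congr rfl fun l _ => Finset.sum_congr rfl fun b _ => ?_
    rw [T3_comm12 h.sm l i b, T3_comm23 h.sm l b j, T3_comm12 h.sm l j b, T3_comm23 h.sm j l b]
    ring
  linarith

theorem pd2MM_sum (i j k : Fin n) : ∑ l, pd (pd (MM u i j k) l) l z =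
    (∑ b, PP u j b z * T3 u i b k z) - 2 * (∑ l, ∑ b, T3 u l j b z * pd (T3 u i b k) l z) +
      ∑ l, pd (pd (T3 u i j k) l) l z := by
  unfold MM
  simp only [pd2_sum (fun b _ => (sm_G h.sm j b).mul (sm_T3 h.sm i b k)),
    pd2_mul (sm_G h.sm j _) (sm_T3 h.sm i _ k), pdG_pt h hzO hz, hz]
  simp only [Finset.sum_add_distrib, neg_mul, Finset.sum_neg_distrib, ite_mul, one_mul, zero_mul,
    Finset.sum_ite_eq, Finset.mem_univ, if_true]
  rw [Finset.sum_comm (f := fun l b => pd (pd (G u j b) l) l z * T3 u i b k z)]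
  simp only [← Finset.sum_mul, pd2G_sum h hzO hz]
  ring

theorem lapRR_pt : lap u (RR u) z =
    (∑ i, ∑ a, PP u i a z * PP u i a z) -
      2 * (∑ l, ∑ i, ∑ a, T3 u l i a z *
        ∑ j, ∑ k, (pd (MM u i j k) l z * T3 u a k j z + T3 u i j k z * pd (MM u a k j) l z)) +
      2 * (∑ i, ∑ j, ∑ k, ((∑ b, PP u j b z * T3 u i b k z) -
        2 * (∑ l, ∑ b, T3 u l j b z * pd (T3 u i b k) l z) +
        ∑ l, pd (pd (T3 u i j k) l) l z) * T3 u i k j z) +
      2 * ∑ l, ∑ i, ∑ j, ∑ k, pd (MM u i j k) l z * pd (MM u i k j) l z := by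
  have hl : lap u (RR u) z = ∑ l, pd (pd (RR u) l) l z := by simp [lap, hz]
  have h2 : ∀ l, pd (pd (RR u) l) l z = ∑ i, ∑ a, (pd (pd (G u i a) l) l z * PP u i a z -
      2 * (T3 u l i a z * pd (PP u i a) l z)) + ∑ i, pd (pd (PP u i i) l) l z := by
    intro l
    unfold RR
    rw [pd2_sum (fun i _ => sm_sum fun a _ => (sm_G h.sm i a).mul (sm_PP h.sm i a)),
      ← Finset.sum_add_distrib]
    refine Finset.sum_congr rfl fun i _ => ?_
    rw [pd2_sum (fun a _ => (sm_G h.sm i a).mul (sm_PP h.sm i a))]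
    simp only [pd2_mul (sm_G h.sm i _) (sm_PP h.sm i _), pdG_pt h hzO hz, hz, ite_mul, one_mul, zero_mul,
      Finset.sum_add_distrib, Finset.sum_sub_distrib, Finset.sum_ite_eq, Finset.mem_univ, if_true,
      neg_mul, Finset.sum_neg_distrib, ← Finset.mul_sum]
    ring
  have h3 : ∀ l i, pd (pd (PP u i i) l) l z = ∑ j, ∑ k,
      (2 * (pd (pd (MM u i j k) l) l z * T3 u i k j z) +
        2 * (pd (MM u i j k) l z * pd (MM u i k j) l z)) := by
    intro l i
    unfold PP
    rw [pd2_sum (fun j _ => sm_sum fun k _ => (sm_MM h.sm i j k).mul (sm_MM h.sm i k j))]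
    simp only [pd2_sum (fun k _ => (sm_MM h.sm i _ k).mul (sm_MM h.sm i k _)),
      pd2_mul (sm_MM h.sm i _ _) (sm_MM h.sm i _ _), MM_pt h hzO hz, two_mul, Finset.sum_add_distrib]
    have e : ∑ j, ∑ k, T3 u i j k z * pd (pd (MM u i k j) l) l z =
        ∑ j, ∑ k, pd (pd (MM u i j k) l) l z * T3 u i k j z := by
      rw [Finset.sum_comm]
      exact Finset.sum_congr rfl fun j _ => Finset.sum_congr rfl fun k _ => mul_comm _ _
    linarith
  rw [hl]
  simp only [h2, h3, Finset.sum_add_distrib, Finset.sum_sub_distrib, ← Finset.mul_sum,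
    pdPP_pt h hzO hz]
  have e1 : ∑ l, ∑ i, ∑ a, pd (pd (G u i a) l) l z * PP u i a z =
      ∑ i, ∑ a, PP u i a z * PP u i a z := by
    rw [Finset.sum_comm]
    refine Finset.sum_congr rfl fun i _ => ?_
    rw [Finset.sum_comm]
    exact Finset.sum_congr rfl fun a _ => by rw [← Finset.sum_mul, pd2G_sum h hzO hz]
  have e2 : ∑ l, ∑ i, ∑ j, ∑ k, pd (pd (MM u i j k) l) l z * T3 u i k j z =
      ∑ i, ∑ j, ∑ k, (∑ l, pd (pd (MM u i j k) l) l z) * T3 u i k j z := by
    simp only [Finset.sum_mul]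
    rw [Finset.sum_comm]
    refine Finset.sum_congr rfl fun i _ => ?_
    rw [Finset.sum_comm]
    refine Finset.sum_congr rfl fun j _ => ?_
    rw [Finset.sum_comm]
  rw [e1, e2]
  simp only [pd2MM_sum h hzO hz]
  ring

end Point

section Three

variable {u : V 3 → ℝ} {O : Set (V 3)} {z : V 3}

theorem weighted_pt (h : DetOne u O) (hzO : z ∈ O) (hz : ∀ i j, G u i j z = if i = j then 1 else 0)
    (v k : ℝ) :
    v ^ 2 * RR u z ^ 2 / 3 ≤ v ^ 2 * lap u (RR u) z - k * v * ip u u (RR u) z +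
      k ^ 2 / 2 * QQ u z * RR u z := by
  set A : Fin 3 → Fin 3 → Fin 3 → ℝ := fun i j k => T3 u i j k z with hA
  set B : Fin 3 → Fin 3 → Fin 3 → Fin 3 → ℝ := fun l i j k => pd (T3 u i j k) l z with hB
  have hw := calabi_weighted (A := A) (B := B)
    (fun i j k => congrFun (T3_comm12 h.sm i j k) z)
    (fun i j k => congrFun (T3_comm23 h.sm i j k) z)
    (fun l i j k => congrFun (T4_comm01 h.sm l i j k) z)
    (fun l i j k => congrFun (T4_comm12 h.sm l i j k) z)
    (fun l i j k => congrFun (T4_comm23 h.sm l i j k) z)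
    (traceA_pt h hzO hz) (fun j k => traceB_pt h hzO hz j k) (fun l => pd u l z) v k
  have eP : ∀ i a, PP u i a z = ric A i a := PP_pt h hzO hz
  have eM : ∀ l i j k, pd (MM u i j k) l z = dm A B l i j k := pdMM_pt h hzO hz
  have e1 : lap u (RR u) z = lapR A B := by
    rw [lapRR_pt h hzO hz]
    simp only [eP, eM, fifth_pt h hzO hz]
    rfl
  have e2 : ip u u (RR u) z = ∑ l, pd u l z * dR A B l := by
    simp only [ip, hz, ite_mul, one_mul, zero_mul, Finset.sum_ite_eq, Finset.mem_univ, if_true,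
      pdRR_pt h hzO hz, eP, eM]
    rfl
  have e3 : QQ u z = ∑ l, pd u l z * pd u l z := by simp [QQ, WW, hz]
  have e4 : RR u z = ∑ i, ric A i i := by
    rw [RR_pt h hzO hz]; rfl
  rw [e1, e2, e3, e4]
  exact hw

theorem cubic_pt (h : DetOne u O) (hzO : z ∈ O) (hz : ∀ i j, G u i j z = if i = j then 1 else 0) :
    C3 u z ^ 2 ≤ 2 / 5 * RR u z * QQ u z ^ 3 := by
  have hc := cubic_le (A := fun i j k => T3 u i j k z)
    (fun i j k => congrFun (T3_comm12 h.sm i j k) z)
    (fun i j k => congrFun (T3_comm23 h.sm i j k) z) (traceA_pt h hzO hz) (fun l => pd u l z)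
  have e : RR u z = ∑ i, ric (fun i j k => T3 u i j k z) i i := by rw [RR_pt h hzO hz]; rfl
  have e3 : QQ u z = ∑ l, pd u l z * pd u l z := by simp [QQ, WW, hz]
  have e5 : ∀ l, WW u l z = pd u l z := fun l => by simp [WW, hz]
  rw [e, e3]
  simpa [C3, e5] using hc

end Three

end Vale.Agent.P252C
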