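import Vale.Agent.P252C.Energy
import Vale.Agent.P100.Puncture

/-!
Sections of a convex function with closed graph and unit Hessian determinant: compactness, the
volume bound, and a globally smooth modification.
-/

open Set Matrix Finset MeasureTheory Metric

namespace Vale.Agent.P252C

open Vale.Agent.P252 (hessian)
open Vale.Agent.P252B (V pd Admissible)

/-- A normalised solution: closed graph, vanishing value and gradient at the origin, unit
Hessian determinant. -/
structure Norm1 (O : Set (V 3)) (U : V 3 → ℝ) : Prop where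
  adm : Admissible O U
  zero_mem : (0 : V 3) ∈ O
  at0 : U 0 = 0
  grad0 : fderiv ℝ U 0 = 0
  det : ∀ x ∈ O, (hessian U x).det = 1
  graph : IsClosed {p : V 3 × ℝ | p.1 ∈ O ∧ p.2 = U p.1}

variable {O : Set (V 3)} {U : V 3 → ℝ}

theorem Norm1.nonneg (N : Norm1 O U) {x : V 3} (hx : x ∈ O) : 0 ≤ U x := by
  simpa [N.at0, N.grad0] using P252B.tangent_le N.adm N.zero_mem hx

theorem Norm1.pos (N : Norm1 O U) {x : V 3} (hx : x ∈ O) (h0 : x ≠ 0) : 0 < U x := by
  simpa [N.at0, N.grad0] using P252B.tangent_lt N.adm N.zero_mem hx (Ne.symm h0)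

theorem Norm1.contAt (N : Norm1 O U) {x : V 3} (hx : x ∈ O) : ContinuousAt U x :=
  (P252B.diffAt_of_mem N.adm.1 N.adm.2.2.1 hx).continuousAt

/-- The section of height `c`. -/
def sec (O : Set (V 3)) (U : V 3 → ℝ) (c : ℝ) : Set (V 3) := {x | x ∈ O ∧ U x ≤ c}

theorem Norm1.sec_closed (N : Norm1 O U) (c : ℝ) : IsClosed (sec O U c) := by
  refine isClosed_of_closure_subset fun x hx => ?_
  obtain ⟨s, hs, hlim⟩ := mem_closure_iff_seq_limit.1 hx
  obtain ⟨l, hl, φ, hφ, hφl⟩ := (isCompact_Icc (a := (0 : ℝ)) (b := c)).tendsto_subseq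
    (x := fun k => U (s k)) fun k => ⟨N.nonneg (hs k).1, (hs k).2⟩
  have h : (x, l) ∈ {p : V 3 × ℝ | p.1 ∈ O ∧ p.2 = U p.1} :=
    N.graph.mem_of_tendsto ((hlim.comp hφ.tendsto_atTop).prodMk_nhds hφl)
      (Filter.Eventually.of_forall fun k => ⟨(hs (φ k)).1, rfl⟩)
  exact ⟨h.1, h.2 ▸ hl.2⟩

theorem Norm1.sec_compact (N : Norm1 O U) (c : ℝ) : IsCompact (sec O U c) := by
  refine Metric.isCompact_of_isClosed_isBounded (N.sec_closed c) ?_
  obtain ⟨ρ, hρ, hball⟩ := Metric.nhds_basis_closedBall.mem_iff.1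
    (N.adm.1.mem_nhds N.zero_mem)
  have : Nonempty (Fin 3) := ⟨0⟩
  obtain ⟨z, hz, hzm⟩ := (isCompact_sphere (0 : V 3) ρ).exists_isMinOn
    (NormedSpace.sphere_nonempty.2 hρ.le)
    (fun x hx => (N.contAt (hball (sphere_subset_closedBall hx))).continuousWithinAt)
  have hm : 0 < U z := N.pos (hball (sphere_subset_closedBall hz))
    (fun h => by simp [h] at hz; exact hρ.ne hz)
  refine (Metric.isBounded_closedBall (x := (0 : V 3)) (r := max ρ (|c| * ρ / U z))).subset
    fun x hx => ?_
  rw [mem_closedBall_zero_iff]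
  rcases le_or_gt ‖x‖ ρ with h | h
  · exact h.trans (le_max_left _ _)
  refine le_max_of_le_right ?_
  have hxp : 0 < ‖x‖ := hρ.trans h
  set a := ρ / ‖x‖ with ha
  have ha0 : 0 < a := by positivity
  have ha1 : a ≤ 1 := (div_le_one hxp).2 h.le
  have h1 := P252B.convex_comb_le N.adm hx.1 N.zero_mem ha0.le (sub_nonneg.2 ha1) (by ring)
  rw [N.at0, mul_zero, add_zero, smul_zero, add_zero] at h1
  have h2 : U z ≤ U (a • x) := hzm (by
    rw [mem_sphere_zero_iff_norm, norm_smul, Real.norm_eq_abs, abs_of_pos ha0, ha,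
      div_mul_cancel₀ _ hxp.ne'])
  have h3 : U z ≤ a * |c| := h2.trans (h1.trans (mul_le_mul_of_nonneg_left
    (hx.2.trans (le_abs_self c)) ha0.le))
  rw [ha, div_mul_eq_mul_div, le_div_iff₀ hxp] at h3
  rw [le_div_iff₀ hm]
  linarith

theorem Norm1.sec_convex (N : Norm1 O U) (c : ℝ) : Convex ℝ (sec O U c) :=
  fun x hx y hy a b ha hb hab => ⟨N.adm.2.1 hx.1 hy.1 ha hb hab,
    (P252B.convex_comb_le N.adm hx.1 hy.1 ha hb hab).trans ((add_le_add
      (mul_le_mul_of_nonneg_left hx.2 ha) (mul_le_mul_of_nonneg_left hy.2 hb)).trans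
      (by rw [← add_mul, hab, one_mul]))⟩

/-- A globally smooth function equal to `U` below height `h`, constant outside a compact set. -/
noncomputable def ext (O : Set (V 3)) (U : V 3 → ℝ) (h : ℝ) : V 3 → ℝ := fun x =>
  h + 1 + O.indicator (fun y => Real.smoothTransition (h + 1 - U y) * (U y - (h + 1))) x

theorem ext_eq {h : ℝ} {x : V 3} (hx : x ∈ O) (hU : U x ≤ h) : ext O U h x = U x := by
  simp [ext, hx, Real.smoothTransition.one_of_one_le (show (1 : ℝ) ≤ h + 1 - U x by linarith)]

theorem ext_smooth (N : Norm1 O U) (h : ℝ) : Sm (ext O U h) := by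
  refine ContDiff.add contDiff_const (contDiff_iff_contDiffAt.2 fun x => ?_)
  by_cases hx : x ∈ O
  · have hU := (N.adm.2.2.1 x hx).contDiffAt (N.adm.1.mem_nhds hx)
    refine ContDiffAt.congr_of_eventuallyEq ?_ (Filter.eventuallyEq_of_mem (N.adm.1.mem_nhds hx)
      fun y hy => indicator_of_mem hy _)
    exact ((Real.smoothTransition.contDiff.contDiffAt).comp x (contDiffAt_const.sub hU)).mul
      (hU.sub contDiffAt_const)
  · refine (contDiffAt_const (c := (0 : ℝ))).congr_of_eventuallyEq ?_
    filter_upwards [(N.sec_closed (h + 1)).isOpen_compl.mem_nhds (fun h' => hx h'.1)] with y hy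
    by_cases hyO : y ∈ O
    · have : h + 1 ≤ U y := le_of_not_ge fun h' => hy ⟨hyO, h'⟩
      simp [hyO, Real.smoothTransition.zero_of_nonpos (show h + 1 - U y ≤ 0 by linarith)]
    · simp [hyO]

theorem ext_below {h : ℝ} {x : V 3} {H : ℝ} (hH : H ≤ h) (hx : ext O U h x < H) :
    x ∈ sec O U H := by
  by_cases hxO : x ∈ O
  · refine ⟨hxO, ?_⟩
    rcases le_or_gt (U x) h with h1 | h1
    · rw [ext_eq hxO h1] at hx; exact hx.le
    exfalso
    simp only [ext, indicator_of_mem hxO] at hx
    have h0 := Real.smoothTransition.nonneg (h + 1 - U x)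
    have h2 := Real.smoothTransition.le_one (h + 1 - U x)
    rcases le_or_gt (U x) (h + 1) with h3 | h3
    · nlinarith
    · have := mul_nonneg h0 (sub_nonneg.2 h3.le)
      linarith
  · simp [ext, hxO] at hx
    linarith

/-- The open set below height `h`. -/
def low (O : Set (V 3)) (U : V 3 → ℝ) (h : ℝ) : Set (V 3) := {x | x ∈ O ∧ U x < h}

theorem Norm1.low_open (N : Norm1 O U) (h : ℝ) : IsOpen (low O U h) :=
  isOpen_iff_mem_nhds.2 fun _ hx => Filter.inter_mem (N.adm.1.mem_nhds hx.1)
    ((N.contAt hx.1).preimage_mem_nhds (Iio_mem_nhds hx.2))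

theorem pd_ext (N : Norm1 O U) {h : ℝ} {x : V 3} (hx : x ∈ low O U h) (i : Fin 3) :
    pd (ext O U h) i x = pd U i x :=
  pd_congr_on (N.low_open h) (fun _ hy => ext_eq hy.1 hy.2.le) hx i

theorem hessian_ext (N : Norm1 O U) {h : ℝ} {x : V 3} (hx : x ∈ low O U h) :
    hessian (ext O U h) x = hessian U x := by
  ext i j
  rw [hessian_T2 (ext_smooth N h), P252B.hessian_eq N.adm.1 N.adm.2.2.1 hx.1]
  exact pd2_congr_on (N.low_open h) (fun _ hy => ext_eq hy.1 hy.2.le) hx i j

theorem Norm1.detOne (N : Norm1 O U) (h : ℝ) : DetOne (ext O U h) (low O U h) where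
  sm := ext_smooth N h
  op := N.low_open h
  pos x hx := by rw [hessian_ext N hx]; exact N.adm.2.2.2 x hx.1
  det x hx := by rw [hessian_ext N hx]; exact N.det x hx.1

theorem det_le_of_form {M : Matrix (Fin 3) (Fin 3) ℝ} {m : ℝ} (hM : M.PosDef)
    (hq : ∀ a : Fin 3 → ℝ, a ⬝ᵥ (M *ᵥ a) ≤ m * (a ⬝ᵥ a)) : M.det ≤ m ^ 3 := by
  rw [hM.isHermitian.det_eq_prod_eigenvalues]
  simp only [RCLike.ofReal_real_eq_id, id]
  refine (Finset.prod_le_prod (fun i _ => (hM.eigenvalues_pos i).le) fun i _ => ?_).trans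
    (le_of_eq (Fin.prod_const 3 m))
  set a : Fin 3 → ℝ := ⇑(hM.isHermitian.eigenvectorBasis i) with ha
  have h1 := hq a
  have h2 : M *ᵥ a = hM.isHermitian.eigenvalues i • a := hM.isHermitian.mulVec_eigenvectorBasis i
  have h3 : a ⬝ᵥ a = 1 := by
    have := hM.isHermitian.eigenvectorBasis.orthonormal.1 i
    have h4 : ‖hM.isHermitian.eigenvectorBasis i‖ ^ 2 = 1 := by rw [this]; norm_num
    rw [EuclideanSpace.real_norm_sq_eq] at h4
    rw [← h4]
    simp only [dotProduct, ha, sq]
  rw [h2, dotProduct_smul, h3, smul_eq_mul, mul_one, mul_one] at h1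
  exact h1

/-- The volume of a section is at most a constant times `H ^ (3/2)`, in squared form. -/
theorem Norm1.sec_volume (N : Norm1 O U) :
    ∃ C : ℝ, ∀ H : ℝ, 0 < H → volume.real (sec O U H) ^ 2 ≤ C * H ^ 3 := by
  refine ⟨(128 : ℝ) ^ 3 * volume.real (closedBall (0 : V 3) 2) ^ 2, fun H hH => ?_⟩
  set S := sec O U H with hS
  have h0S : (0 : V 3) ∈ S := ⟨N.zero_mem, by rw [N.at0]; exact hH.le⟩
  -- three points of the section spanning the largest parallelotope
  set d : (Fin 3 → V 3) → ℝ := fun P => |(Matrix.of fun i j => P j i).det| with hd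
  have hdc : Continuous d := by
    refine continuous_abs.comp (Continuous.matrix_det ?_)
    exact continuous_pi fun i => continuous_pi fun j => by fun_prop
  obtain ⟨P, hP, hmax⟩ := (isCompact_univ_pi fun _ : Fin 3 => N.sec_compact H).exists_isMaxOn
    ⟨fun _ => 0, fun _ _ => h0S⟩ hdc.continuousOn
  set T : Matrix (Fin 3) (Fin 3) ℝ := Matrix.of fun i j => P j i with hT
  have hT0 : T.det ≠ 0 := by
    obtain ⟨r, hr, hball⟩ := Metric.nhds_basis_closedBall.mem_iff.1
      ((N.low_open H).mem_nhds ⟨N.zero_mem, by rw [N.at0]; exact hH⟩)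
    have h := hmax (show (fun j => r • EuclideanSpace.single j (1 : ℝ)) ∈
      Set.univ.pi fun _ : Fin 3 => S from fun j _ => by
        have h' := hball (show r • EuclideanSpace.single j (1 : ℝ) ∈ closedBall (0 : V 3) r by
          simp [norm_smul, abs_of_pos hr])
        exact ⟨h'.1, h'.2.le⟩)
    simp only [Set.mem_ofPred_eq, hd] at h
    have e : (Matrix.of fun i j => (r • EuclideanSpace.single j (1 : ℝ) : V 3) i :
        Matrix (Fin 3) (Fin 3) ℝ).det = r ^ 3 := by
      rw [show (Matrix.of fun i j => (r • EuclideanSpace.single j (1 : ℝ) : V 3) i :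
        Matrix (Fin 3) (Fin 3) ℝ) = r • 1 by ext i j; simp [Matrix.one_apply]]
      simp
    rw [e, abs_of_pos (by positivity)] at h
    intro hc
    rw [hT] at hc
    rw [hc, abs_zero] at h
    have := pow_pos hr 3
    linarith
  -- the section lies in the image of a fixed ball
  have hsub : S ⊆ lin T '' closedBall (0 : V 3) 2 := by
    intro y hy
    set c : Fin 3 → ℝ := T.det⁻¹ • T.cramer ⇑y with hc
    have hTc : T *ᵥ c = ⇑y := by
      rw [hc, Matrix.mulVec_smul, Matrix.mulVec_cramer, smul_smul, inv_mul_cancel₀ hT0, one_smul]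
    have hc1 : ∀ i, |c i| ≤ 1 := by
      intro i
      have h := hmax (show Function.update P i y ∈ Set.univ.pi fun _ : Fin 3 => S from
        fun j _ => by
          by_cases hj : j = i
          · subst hj; simpa using hy
          · simpa [Function.update_of_ne hj] using hP j (Set.mem_univ j))
      simp only [Set.mem_ofPred_eq, hd] at h
      have e : (Matrix.of fun a b => Function.update P i y b a) = T.updateCol i ⇑y := by
        ext a b
        by_cases hb : b = i
        · subst hb; simp
        · simp [hb, hT]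
      rw [e, ← hT, ← Matrix.cramer_apply] at h
      rw [hc, Pi.smul_apply, smul_eq_mul, abs_mul, abs_inv, inv_mul_le_iff₀ (abs_pos.2 hT0), mul_one]
      exact h
    refine ⟨WithLp.toLp 2 c, ?_, ?_⟩
    · rw [mem_closedBall_zero_iff]
      have h4 : ‖WithLp.toLp 2 c‖ ^ 2 ≤ 2 ^ 2 := by
        rw [EuclideanSpace.real_norm_sq_eq, Fin.sum_univ_three]
        have := sq_le_one_iff_abs_le_one (c 0) |>.2 (hc1 0)
        have := sq_le_one_iff_abs_le_one (c 1) |>.2 (hc1 1)
        have := sq_le_one_iff_abs_le_one (c 2) |>.2 (hc1 2)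
        simp only
        linarith
      exact (pow_le_pow_iff_left₀ (norm_nonneg _) two_pos.le two_ne_zero).1 h4
    · ext a
      rw [lin_apply]
      exact congrFun hTc a
  -- comparison inside the simplex
  have hdet : T.det ^ 2 ≤ (128 * H) ^ 3 := by
    by_contra hcon
    push Not at hcon
    set h := H + 1 with hh
    set w : V 3 → ℝ := fun y => ext O U h (lin T y) with hw
    have hwsm : Sm w := sm_lin T (ext_smooth N h)
    set c0 : V 3 := WithLp.toLp 2 fun _ => 1 / 4 with hc0
    have hin : ∀ y ∈ closedBall c0 (1 / 8), lin T y ∈ S := by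
      intro y hy
      have hcoord : ∀ i, |y i - 1 / 4| ≤ 1 / 8 := fun i => by
        have h1 := (PiLp.norm_apply_le (y - c0) i).trans (by simpa [dist_eq_norm] using hy)
        simpa [hc0] using h1
      have hb : ∀ i, 1 / 8 ≤ y i ∧ y i ≤ 3 / 8 := fun i => by
        have := abs_le.1 (hcoord i); constructor <;> linarith
      have hsq : (y 0 - 1 / 4) ^ 2 + (y 1 - 1 / 4) ^ 2 + (y 2 - 1 / 4) ^ 2 ≤ (1 / 8) ^ 2 := by
        have h1 : ‖y - c0‖ ^ 2 ≤ (1 / 8) ^ 2 :=
          pow_le_pow_left₀ (norm_nonneg _) (by simpa [dist_eq_norm] using hy) 2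
        rw [EuclideanSpace.real_norm_sq_eq, Fin.sum_univ_three] at h1
        simpa [hc0] using h1
      have hs : y 0 + y 1 + y 2 ≤ 1 := by
        nlinarith [sq_nonneg (y 0 - y 1), sq_nonneg (y 0 - y 2), sq_nonneg (y 1 - y 2)]
      have e : lin T y = ∑ j : Fin 4, (Fin.cons (1 - (y 0 + y 1 + y 2)) (fun i => y i) : Fin 4 → ℝ) j •
          (Fin.cons 0 P : Fin 4 → V 3) j := by
        rw [Fin.sum_univ_succ]
        simp only [Fin.cons_zero, Fin.cons_succ, smul_zero, zero_add]
        ext a
        rw [lin_apply]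
        simp [hT, Fin.sum_univ_three, mul_comm]
      rw [e]
      refine (N.sec_convex H).sum_mem (fun j _ => ?_) ?_ fun j _ => ?_
      · refine Fin.cases ?_ (fun i => ?_) j
        · simp only [Fin.cons_zero]; linarith
        · simp only [Fin.cons_succ]; linarith [(hb i).1]
      · rw [Fin.sum_univ_succ]
        simp only [Fin.cons_zero, Fin.cons_succ, Fin.sum_univ_three]
        ring
      · refine Fin.cases ?_ (fun i => ?_) j
        · simpa using h0S
        · simpa using hP i (Set.mem_univ i)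
    have hwU : ∀ y ∈ closedBall c0 (1 / 8), w y = U (lin T y) := fun y hy =>
      ext_eq (hin y hy).1 ((hin y hy).2.trans (by linarith))
    set g : V 3 → ℝ := fun y => H + 64 * H * (‖y - c0‖ ^ 2 - (1 / 8) ^ 2) - w y with hg
    have hgc : Continuous g := by
      have := ContDiff.continuous hwsm
      fun_prop
    obtain ⟨z, hz, hzmin⟩ := (isCompact_closedBall c0 (1 / 8)).exists_isMinOn
      ⟨c0, mem_closedBall_self (by norm_num)⟩ hgc.continuousOn
    have hg0 : g c0 < 0 := by
      have hmem : c0 ∈ closedBall c0 (1 / 8) := mem_closedBall_self (by norm_num)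
      have hne : lin T c0 ≠ 0 := fun h0 => by
        have h2 : T *ᵥ ⇑c0 = 0 := funext fun a => by
          have := congrArg (fun z : V 3 => z a) h0
          simpa [lin_apply, Matrix.mulVec, dotProduct] using this
        have h3 := congrFun (Matrix.eq_zero_of_mulVec_eq_zero hT0 h2) 0
        simp [hc0] at h3
      have := N.pos (hin c0 hmem).1 hne
      simp only [hg, hwU c0 hmem, sub_self, norm_zero]
      linarith
    have hzi : ‖z - c0‖ < 1 / 8 := by
      refine lt_of_le_of_ne (by simpa [dist_eq_norm] using hz) fun e => ?_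
      have h1 : g z ≤ g c0 := hzmin (mem_closedBall_self (by norm_num))
      have h2 := (hin z hz).2
      simp only [hg, e, hwU z hz] at h1
      simp only [hg] at hg0
      linarith
    have hlow : lin T z ∈ low O U h := ⟨(hin z hz).1, (hin z hz).2.trans_lt (by linarith)⟩
    have hloc : IsLocalMin g z := hzmin.isLocalMin (Filter.mem_of_superset
      (Metric.isOpen_ball.mem_nhds (show z ∈ ball c0 (1 / 8) by simpa [dist_eq_norm] using hzi))
      ball_subset_closedBall)
    have hform : ∀ a : Fin 3 → ℝ, a ⬝ᵥ (hessian w z *ᵥ a) ≤ 128 * H * (a ⬝ᵥ a) := by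
      intro a
      set e : V 3 := WithLp.toLp 2 a with he
      obtain ⟨q, hq, hq'⟩ := P100.line_deriv (e := e) (ContDiff.contDiffAt (x := z)
        (ContDiff.of_le hwsm (WithTop.coe_le_coe.2 le_top)))
      have hE : iteratedFDeriv ℝ 2 w z ![e, e] = a ⬝ᵥ (hessian w z *ᵥ a) := by
        rw [iteratedFDeriv_two_apply]
        simp only [Matrix.cons_val_zero, Matrix.cons_val_one]
        conv_lhs => rw [P252B.vec_eq_sum e]
        simp [map_sum, hessian, dotProduct, Matrix.mulVec, Finset.mul_sum, he]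
        rw [Finset.sum_comm]
        exact Finset.sum_congr rfl fun i _ => Finset.sum_congr rfl fun j _ => by ring
      have hQ : ∀ᶠ t in nhds (0 : ℝ), HasDerivAt (fun t => g (z + t • e))
          (64 * H * (2 * (inner ℝ (z - c0) e) + 2 * t * (a ⬝ᵥ a)) - q t) t := by
        filter_upwards [hq] with t ht
        have hn : HasDerivAt (fun t : ℝ => ‖z + t • e - c0‖ ^ 2)
            (2 * (inner ℝ (z - c0) e) + 2 * t * (a ⬝ᵥ a)) t := by
          have h1 : HasDerivAt (fun t : ℝ => z + t • e - c0) e t := by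
            simpa using (((hasDerivAt_id t).smul_const e).const_add z).sub_const c0
          refine h1.norm_sq.congr_deriv ?_
          rw [show z + t • e - c0 = (z - c0) + t • e by abel, inner_add_left, real_inner_smul_left,
            show inner ℝ e e = a ⬝ᵥ a by
              rw [real_inner_self_eq_norm_sq, EuclideanSpace.real_norm_sq_eq]; simp [he, dotProduct, sq]]
          ring
        exact ((((hn.sub_const _).const_mul (64 * H)).const_add H).sub ht)
      have hQ' : HasDerivAt (fun t => 64 * H * (2 * (inner ℝ (z - c0) e) + 2 * t * (a ⬝ᵥ a)) - q t)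
          (64 * H * (2 * (a ⬝ᵥ a)) - iteratedFDeriv ℝ 2 w z ![e, e]) 0 := by
        have h1 : HasDerivAt (fun t : ℝ => 2 * (inner ℝ (z - c0) e) + 2 * t * (a ⬝ᵥ a))
            (2 * (a ⬝ᵥ a)) 0 := by
          simpa using (((hasDerivAt_id (0 : ℝ)).const_mul 2).mul_const (a ⬝ᵥ a)).const_add
            (2 * (inner ℝ (z - c0) e))
        exact (h1.const_mul (64 * H)).sub hq'
      have hloc' : IsLocalMin g (z + (0 : ℝ) • e) := by simpa using hloc
      have hm : IsLocalMin (fun t : ℝ => g (z + t • e)) 0 :=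
        IsLocalMin.comp_continuous (g := fun t : ℝ => z + t • e) hloc' (by fun_prop)
      have hnn := P100.deriv_deriv_nonneg hm hQ.self_of_nhds.continuousAt
      have hev : deriv (fun t => g (z + t • e)) =ᶠ[nhds 0]
          fun t => 64 * H * (2 * (inner ℝ (z - c0) e) + 2 * t * (a ⬝ᵥ a)) - q t := by
        filter_upwards [hQ] with t ht using ht.deriv
      rw [hev.deriv_eq, hQ'.deriv, hE] at hnn
      linarith
    have hpd : (hessian w z).PosDef := by
      rw [hessian_lin (ext_smooth N h), hessian_ext N hlow]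
      have := (N.adm.2.2.2 _ hlow.1).conjTranspose_mul_mul_same (B := T)
        (Matrix.mulVec_injective_of_isUnit ((Matrix.isUnit_iff_isUnit_det T).2 (Ne.isUnit hT0)))
      simpa [Matrix.conjTranspose_eq_transpose_of_trivial] using this
    have hle := det_le_of_form hpd hform
    rw [hessian_lin (ext_smooth N h), hessian_ext N hlow, Matrix.det_mul, Matrix.det_mul,
      Matrix.det_transpose, N.det _ hlow.1] at hle
    linarith
  have hvol : volume.real S ≤ |T.det| * volume.real (closedBall (0 : V 3) 2) := by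
    have himg : volume.real (lin T '' closedBall (0 : V 3) 2) =
        |T.det| * volume.real (closedBall (0 : V 3) 2) := by
      rw [Measure.real, Measure.real, Measure.addHaar_image_continuousLinearMap, ENNReal.toReal_mul,
        ENNReal.toReal_ofReal (abs_nonneg _)]
      congr 2
      exact LinearMap.det_toLin (PiLp.basisFun 2 ℝ (Fin 3)) T
    rw [← himg]
    exact measureReal_mono hsub ((isCompact_closedBall _ _).image (lin T).continuous).measure_lt_top.ne
  calc volume.real S ^ 2 ≤ (|T.det| * volume.real (closedBall (0 : V 3) 2)) ^ 2 :=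
        pow_le_pow_left₀ measureReal_nonneg hvol 2
    _ = T.det ^ 2 * volume.real (closedBall (0 : V 3) 2) ^ 2 := by rw [mul_pow, sq_abs]
    _ ≤ (128 * H) ^ 3 * volume.real (closedBall (0 : V 3) 2) ^ 2 :=
        mul_le_mul_of_nonneg_right hdet (sq_nonneg _)
    _ = _ := by ring

end Vale.Agent.P252C
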